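import Vale.Agent.P050.Defs

/-!
# P050: ANTI
-/

namespace Vale.Agent.P050
namespace AntiAux

open Finset

variable {N q r : ℕ}

theorem ff_mul (W : Fin q → Fin r → ℝ) (z : Fin N → Fin q) (z' : Fin N → Fin r)
    (σ κ c : Equiv.Perm (Fin N)) : ff W z z' (σ * c) (κ * c) = ff W z z' σ κ := by
  unfold ff
  exact Equiv.prod_comp c (fun l => W (z (σ l)) (z' (κ l)))

theorem ff_nonneg (W : Fin q → Fin r → ℝ) (hW : ∀ a b, 0 ≤ W a b) (z : Fin N → Fin q)
    (z' : Fin N → Fin r) (σ κ : Equiv.Perm (Fin N)) : 0 ≤ ff W z z' σ κ :=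
  prod_nonneg fun _ _ => hW _ _

theorem ff_tp (W : Fin q → Fin r → ℝ) (hT : TP2 W) (hW : ∀ a b, 0 ≤ W a b) (z : Fin N → Fin q)
    (z' : Fin N → Fin r) (hz : Monotone z) (hz' : Monotone z') (σ κ : Equiv.Perm (Fin N))
    (i j : Fin N) (hij : i ≠ j) (hσ : σ i < σ j) (hκ : κ i < κ j) :
    ff W z z' σ (κ * Equiv.swap i j) ≤ ff W z z' σ κ := by
  unfold ff
  have hj : j ∈ (univ : Finset (Fin N)).erase i := mem_erase.2 ⟨hij.symm, mem_univ j⟩
  rw [← mul_prod_erase univ (fun l => W (z (σ l)) (z' ((κ * Equiv.swap i j) l))) (mem_univ i),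
    ← mul_prod_erase univ (fun l => W (z (σ l)) (z' (κ l))) (mem_univ i),
    ← mul_prod_erase (univ.erase i) (fun l => W (z (σ l)) (z' ((κ * Equiv.swap i j) l))) hj,
    ← mul_prod_erase (univ.erase i) (fun l => W (z (σ l)) (z' (κ l))) hj]
  have hA : ∏ l ∈ (univ.erase i).erase j, W (z (σ l)) (z' ((κ * Equiv.swap i j) l)) =
      ∏ l ∈ (univ.erase i).erase j, W (z (σ l)) (z' (κ l)) := by
    apply prod_congr rfl
    intro l hl
    rw [mem_erase, mem_erase] at hl
    rw [Equiv.Perm.mul_apply, Equiv.swap_apply_of_ne_of_ne hl.2.1 hl.1]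
  rw [hA, ← mul_assoc, ← mul_assoc]
  apply mul_le_mul_of_nonneg_right _ (prod_nonneg fun _ _ => hW _ _)
  simp only [Equiv.Perm.mul_apply, Equiv.swap_apply_left, Equiv.swap_apply_right]
  exact hT _ _ _ _ (hz hσ.le) (hz' hκ.le)

/-- flip the sheet -/
def fl (c : Equiv.Perm (Fin N)) (b : Bool) (σ : Equiv.Perm (Fin N)) : Equiv.Perm (Fin N) :=
  if b then σ else σ * c

theorem fl_fl (c : Equiv.Perm (Fin N)) (hc : c * c = 1) (b : Bool) (σ : Equiv.Perm (Fin N)) :
    fl c b (fl c b σ) = σ := by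
  unfold fl
  cases b
  · simp [mul_assoc, hc]
  · simp

/-- ascending version -/
def up (i j : Fin N) (σ : Equiv.Perm (Fin N)) : Equiv.Perm (Fin N) :=
  if σ i < σ j then σ else σ * Equiv.swap i j

theorem up_lt (i j : Fin N) (hij : i ≠ j) (σ : Equiv.Perm (Fin N)) : up i j σ i < up i j σ j := by
  unfold up
  split_ifs with h
  · exact h
  · simp only [Equiv.Perm.mul_apply, Equiv.swap_apply_left, Equiv.swap_apply_right]
    exact lt_of_le_of_ne (not_lt.1 h) (fun h' => hij (σ.injective h').symm)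

theorem fl_up (i j : Fin N) (b : Bool) (σ : Equiv.Perm (Fin N)) :
    fl (Equiv.swap i j) (b == decide (σ i < σ j)) σ = fl (Equiv.swap i j) b (up i j σ) := by
  unfold fl up
  by_cases h : σ i < σ j
  · cases b <;> simp [h]
  · cases b <;> simp [h, mul_assoc]

theorem ff_fl (W : Fin q → Fin r → ℝ) (z : Fin N → Fin q) (z' : Fin N → Fin r)
    (c : Equiv.Perm (Fin N)) (hc : c * c = 1) (b b' : Bool) (σ κ : Equiv.Perm (Fin N)) :
    ff W z z' (fl c b σ) (fl c b' κ) = if b = b' then ff W z z' σ κ else ff W z z' σ (κ * c) := by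
  unfold fl
  cases b <;> cases b'
  · simp [ff_mul]
  · have := ff_mul W z z' σ (κ * c) c
    rw [mul_assoc, hc, mul_one] at this
    simp [this]
  · simp
  · simp

/-- the spin sum of one configuration is nonnegative -/
theorem spin (hG : S_GRIF) {U V : Type} [Fintype U] [Fintype V] [DecidableEq U] [DecidableEq V]
    (E : Finset (U × V)) (W : Fin q → Fin r → ℝ) (hT : TP2 W) (hW : ∀ a b, 0 ≤ W a b)
    (z : Fin N → Fin q) (z' : Fin N → Fin r) (hz : Monotone z) (hz' : Monotone z')
    (i j : Fin N) (hij : i ≠ j) (u : U) (v : V) (τ : U → Equiv.Perm (Fin N))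
    (κ : V → Equiv.Perm (Fin N)) (hu : τ u i < τ u j) (hv : κ v i < κ v j) :
    0 ≤ ∑ ε : U ⊕ V → Bool, sg (ε (Sum.inl u)) * sg (ε (Sum.inr v)) *
      ∏ e ∈ E, ff W z z' (fl (Equiv.swap i j) (ε (Sum.inl e.1)) (τ e.1))
        (fl (Equiv.swap i j) (ε (Sum.inr e.2)) (κ e.2)) := by
  set c := Equiv.swap i j with hcdef
  have hc : c * c = 1 := by rw [hcdef]; exact Equiv.swap_mul_self i j
  let o : U ⊕ V → Bool := fun w => Sum.elim (fun u' => decide (τ u' i < τ u' j))
    (fun v' => decide (κ v' i < κ v' j)) w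
  have hinv : Function.Involutive (fun s : U ⊕ V → Bool => fun w => (s w == o w)) := by
    intro s
    funext w
    show ((s w == o w) == o w) = s w
    cases s w <;> cases o w <;> rfl
  obtain ⟨P, hP⟩ : ∃ P : Equiv.Perm (U ⊕ V → Bool), ∀ s w, P s w = (s w == o w) :=
    ⟨Function.Involutive.toPerm _ hinv, fun _ _ => rfl⟩
  rw [← Equiv.sum_comp P]
  have h := hG (U ⊕ V) (U × V) E (fun e => Sum.inl e.1) (fun e => Sum.inr e.2)
    (fun e => ff W z z' (up i j (τ e.1)) (up i j (κ e.2)))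
    (fun e => ff W z z' (up i j (τ e.1)) (up i j (κ e.2) * c))
    (fun e _ => ⟨ff_nonneg W hW z z' _ _, ff_tp W hT hW z z' hz hz' _ _ i j hij
      (up_lt i j hij _) (up_lt i j hij _)⟩) (Sum.inl u) (Sum.inr v)
  refine le_of_le_of_eq h ?_
  apply sum_congr rfl
  intro s _
  have e1 : P s (Sum.inl u) = s (Sum.inl u) := by
    rw [hP]
    show (s (Sum.inl u) == decide (τ u i < τ u j)) = s (Sum.inl u)
    simp [hu]
  have e2 : P s (Sum.inr v) = s (Sum.inr v) := by
    rw [hP]
    show (s (Sum.inr v) == decide (κ v i < κ v j)) = s (Sum.inr v)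
    simp [hv]
  rw [e1, e2]
  congr 1
  apply prod_congr rfl
  intro e _
  have e3 : P s (Sum.inl e.1) = (s (Sum.inl e.1) == decide (τ e.1 i < τ e.1 j)) := hP _ _
  have e4 : P s (Sum.inr e.2) = (s (Sum.inr e.2) == decide (κ e.2 i < κ e.2 j)) := hP _ _
  rw [e3, e4, hcdef, fl_up, fl_up, ← hcdef, ff_fl W z z' c hc]

end AntiAux

open Finset AntiAux in
theorem anti (hG : S_GRIF) : S_ANTI := by
  intro U V _ _ _ _ E N q r W z z' hT hW hz hz' u v ρ i j hij hρ
  have hij' : i ≠ j := hij.ne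
  set c := Equiv.swap i j with hcdef
  have hc : c * c = 1 := by rw [hcdef]; exact Equiv.swap_mul_self i j
  -- reindexing by flips
  have hflU : ∀ ε : U ⊕ V → Bool, Function.Involutive
      (fun τ : U → Equiv.Perm (Fin N) => fun w => fl c (ε (Sum.inl w)) (τ w)) := by
    intro ε τ
    funext w
    exact fl_fl c hc _ _
  have hflV : ∀ ε : U ⊕ V → Bool, Function.Involutive
      (fun κ : V → Equiv.Perm (Fin N) => fun w => fl c (ε (Sum.inr w)) (κ w)) := by
    intro ε τ
    funext w
    exact fl_fl c hc _ _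
  have hmU : Function.Involutive (fun τ : U → Equiv.Perm (Fin N) => fun w => τ w * c) := by
    intro τ
    funext w
    show τ w * c * c = τ w
    rw [mul_assoc, hc, mul_one]
  have hmV : Function.Involutive (fun τ : V → Equiv.Perm (Fin N) => fun w => τ w * c) := by
    intro τ
    funext w
    show τ w * c * c = τ w
    rw [mul_assoc, hc, mul_one]
  have hmain : ∀ ε : U ⊕ V → Bool,
      (∑ τ : U → Equiv.Perm (Fin N), ∑ κ : V → Equiv.Perm (Fin N),
        if κ v = 1 ∧ τ u = ρ then ∏ e ∈ E, ff W z z' (fl c (ε (Sum.inl e.1)) (τ e.1))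
          (fl c (ε (Sum.inr e.2)) (κ e.2)) else 0) =
      if ε (Sum.inl u) = ε (Sum.inr v) then R E W z z' u v ρ else R E W z z' u v (ρ * c) := by
    intro ε
    have h1 : (∑ τ : U → Equiv.Perm (Fin N), ∑ κ : V → Equiv.Perm (Fin N),
        if κ v = 1 ∧ τ u = ρ then ∏ e ∈ E, ff W z z' (fl c (ε (Sum.inl e.1)) (τ e.1))
          (fl c (ε (Sum.inr e.2)) (κ e.2)) else 0) =
        ∑ τ : U → Equiv.Perm (Fin N), ∑ κ : V → Equiv.Perm (Fin N),
        if fl c (ε (Sum.inr v)) (κ v) = 1 ∧ fl c (ε (Sum.inl u)) (τ u) = ρ then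
          ∏ e ∈ E, ff W z z' (τ e.1) (κ e.2) else 0 := by
      rw [← Equiv.sum_comp (hflU ε).toPerm]
      apply sum_congr rfl
      intro τ _
      rw [← Equiv.sum_comp (hflV ε).toPerm]
      apply sum_congr rfl
      intro κ _
      simp only [Function.Involutive.coe_toPerm, fl_fl c hc]
    have hx : ∀ a b : Equiv.Perm (Fin N), a * c = b ↔ a = b * c := by
      intro a b
      constructor
      · intro h
        rw [← h, mul_assoc, hc, mul_one]
      · intro h
        rw [h, mul_assoc, hc, mul_one]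
    have h2 : ∀ ρ' : Equiv.Perm (Fin N), (∑ τ : U → Equiv.Perm (Fin N),
        ∑ κ : V → Equiv.Perm (Fin N), if κ v * c = 1 ∧ τ u = ρ' then
          ∏ e ∈ E, ff W z z' (τ e.1) (κ e.2) else 0) = R E W z z' u v (ρ' * c) := by
      intro ρ'
      unfold R
      rw [← Equiv.sum_comp hmU.toPerm]
      apply sum_congr rfl
      intro τ _
      rw [← Equiv.sum_comp hmV.toPerm]
      apply sum_congr rfl
      intro κ _
      simp only [Function.Involutive.coe_toPerm, ff_mul]
      have h3 : κ v * c * c = κ v := by rw [mul_assoc, hc, mul_one]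
      rw [h3]
      simp only [hx]
    rw [h1]
    cases hu : ε (Sum.inl u) <;> cases hv : ε (Sum.inr v)
    · have := h2 (ρ * c)
      rw [mul_assoc, hc, mul_one] at this
      rw [if_pos rfl, ← this]
      simp only [fl, Bool.false_eq_true, if_false, hx]
    · rw [if_neg (by simp)]
      unfold R
      simp only [fl, Bool.false_eq_true, if_false, if_true, hx]
    · rw [if_neg (by simp), ← h2 ρ]
      simp only [fl, Bool.false_eq_true, if_false, if_true]
    · rw [if_pos rfl]
      unfold R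
      simp only [fl, if_true]
  have hpos : 0 ≤ ∑ ε : U ⊕ V → Bool, (if ε (Sum.inl u) = ε (Sum.inr v) then
      R E W z z' u v ρ else - R E W z z' u v (ρ * c)) := by
    have h1 : (∑ ε : U ⊕ V → Bool, (if ε (Sum.inl u) = ε (Sum.inr v) then
        R E W z z' u v ρ else - R E W z z' u v (ρ * c))) =
        ∑ τ : U → Equiv.Perm (Fin N), ∑ κ : V → Equiv.Perm (Fin N),
        if κ v = 1 ∧ τ u = ρ then ∑ ε : U ⊕ V → Bool, sg (ε (Sum.inl u)) * sg (ε (Sum.inr v)) *
          ∏ e ∈ E, ff W z z' (fl c (ε (Sum.inl e.1)) (τ e.1))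
            (fl c (ε (Sum.inr e.2)) (κ e.2)) else 0 := by
      have h2 : ∀ ε : U ⊕ V → Bool, (if ε (Sum.inl u) = ε (Sum.inr v) then
        R E W z z' u v ρ else - R E W z z' u v (ρ * c)) =
          sg (ε (Sum.inl u)) * sg (ε (Sum.inr v)) *
          ∑ τ : U → Equiv.Perm (Fin N), ∑ κ : V → Equiv.Perm (Fin N),
            if κ v = 1 ∧ τ u = ρ then ∏ e ∈ E, ff W z z' (fl c (ε (Sum.inl e.1)) (τ e.1))
              (fl c (ε (Sum.inr e.2)) (κ e.2)) else 0 := by
        intro ε
        rw [hmain]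
        cases ε (Sum.inl u) <;> cases ε (Sum.inr v) <;> simp [sg]
      rw [sum_congr rfl fun ε _ => h2 ε]
      simp only [mul_sum]
      rw [sum_comm]
      apply sum_congr rfl
      intro τ _
      rw [sum_comm]
      apply sum_congr rfl
      intro κ _
      split_ifs
      · rfl
      · simp
    rw [h1]
    apply sum_nonneg
    intro τ _
    apply sum_nonneg
    intro κ _
    split_ifs with h
    · apply spin hG E W hT hW z z' hz hz' i j hij' u v τ κ
      · rw [h.2]; exact hρ
      · rw [h.1]; exact hij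
    · exact le_refl 0
  -- conclusion
  have hinv : Function.Involutive (fun s : U ⊕ V → Bool =>
      fun w => if w = Sum.inl u then !(s w) else s w) := by
    intro s
    funext w
    by_cases h : w = Sum.inl u
    · simp [h]
    · simp [h]
  obtain ⟨P, hP⟩ : ∃ P : Equiv.Perm (U ⊕ V → Bool), ∀ s w,
      P s w = if w = Sum.inl u then !(s w) else s w :=
    ⟨Function.Involutive.toPerm _ hinv, fun _ _ => rfl⟩
  have h2 := hpos
  rw [← Equiv.sum_comp P] at h2
  have h3 := add_nonneg hpos h2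
  rw [← sum_add_distrib] at h3
  have h4 : ∀ s : U ⊕ V → Bool, ((if s (Sum.inl u) = s (Sum.inr v) then
      R E W z z' u v ρ else - R E W z z' u v (ρ * c)) +
      (if P s (Sum.inl u) = P s (Sum.inr v) then
      R E W z z' u v ρ else - R E W z z' u v (ρ * c))) =
      R E W z z' u v ρ - R E W z z' u v (ρ * c) := by
    intro s
    simp only [hP, if_true, reduceCtorEq, if_false]
    cases s (Sum.inl u) <;> cases s (Sum.inr v) <;> simp <;> ring
  rw [sum_congr rfl fun s _ => h4 s, sum_const, nsmul_eq_mul] at h3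
  have h5 : (0 : ℝ) < ((univ : Finset (U ⊕ V → Bool)).card : ℝ) := by
    rw [Nat.cast_pos, card_pos]
    exact univ_nonempty
  have h6 := nonneg_of_mul_nonneg_right h3 h5
  linarith

end Vale.Agent.P050
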