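import Vale.Agent.P050.Defs

/-! CORR: positive correlation on the symmetric group. -/

namespace Vale.Agent.P050

open Finset

namespace CorrX

/-- the permutation `0 ↦ k`, `j + 1 ↦ k.succAbove (σ j)` -/
def mk {n : ℕ} (k : Fin (n + 1)) (σ : Equiv.Perm (Fin n)) : Equiv.Perm (Fin (n + 1)) :=
  (finSuccEquiv' 0).trans ((Equiv.optionCongr σ).trans (finSuccEquiv' k).symm)

theorem mk_zero {n : ℕ} (k : Fin (n + 1)) (σ : Equiv.Perm (Fin n)) : mk k σ 0 = k := by
  simp [mk]

theorem mk_succ {n : ℕ} (k : Fin (n + 1)) (σ : Equiv.Perm (Fin n)) (j : Fin n) :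
    mk k σ j.succ = k.succAbove (σ j) := by
  have h : (finSuccEquiv' (0 : Fin (n + 1))) j.succ = some j := by
    have := finSuccEquiv'_succAbove (0 : Fin (n + 1)) j
    simpa using this
  simp [mk, h]

theorem mk_inj {n : ℕ} : Function.Injective
    (fun p : Fin (n + 1) × Equiv.Perm (Fin n) => mk p.1 p.2) := by
  rintro ⟨k, σ⟩ ⟨k', σ'⟩ h
  simp only at h
  have h0 : k = k' := by
    have := congrArg (fun ρ : Equiv.Perm (Fin (n + 1)) => ρ 0) h
    simpa [mk_zero] using this
  subst h0
  have h1 : σ = σ' := by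
    ext j
    have := congrArg (fun ρ : Equiv.Perm (Fin (n + 1)) => ρ j.succ) h
    simp only [mk_succ] at this
    rw [Fin.succAbove_right_injective this]
  rw [h1]

theorem mk_bij {n : ℕ} : Function.Bijective
    (fun p : Fin (n + 1) × Equiv.Perm (Fin n) => mk p.1 p.2) := by
  rw [Fintype.bijective_iff_injective_and_card]
  refine ⟨mk_inj, ?_⟩
  simp [Fintype.card_perm, Nat.factorial_succ]

theorem sum_mk {n : ℕ} (f : Equiv.Perm (Fin (n + 1)) → ℝ) :
    ∑ ρ, f ρ = ∑ k, ∑ σ, f (mk k σ) := by
  rw [← Fintype.sum_prod_type']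
  exact (Fintype.sum_bijective _ mk_bij _ _ (fun _ => rfl)).symm

theorem mk_mul_swap {n : ℕ} (k : Fin (n + 1)) (σ : Equiv.Perm (Fin n)) (i j : Fin n) :
    mk k (σ * Equiv.swap i j) = mk k σ * Equiv.swap i.succ j.succ := by
  refine Equiv.ext fun x => ?_
  refine Fin.cases ?_ (fun l => ?_) x
  · rw [Equiv.Perm.mul_apply, Equiv.swap_apply_of_ne_of_ne (Fin.succ_ne_zero i).symm
      (Fin.succ_ne_zero j).symm, mk_zero, mk_zero]
  · rw [Equiv.Perm.mul_apply, mk_succ, Equiv.Perm.mul_apply]
    have : Equiv.swap i.succ j.succ l.succ = (Equiv.swap i j l).succ := by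
      by_cases h1 : l = i
      · subst h1
        simp
      · by_cases h2 : l = j
        · subst h2
          simp
        · rw [Equiv.swap_apply_of_ne_of_ne h1 h2, Equiv.swap_apply_of_ne_of_ne]
          · simpa using h1
          · simpa using h2
    rw [this, mk_succ]

theorem mk_step {n : ℕ} (k : Fin n) (σ : Equiv.Perm (Fin n)) :
    mk k.succ σ = mk k.castSucc σ * Equiv.swap 0 (σ.symm k).succ := by
  refine Equiv.ext fun x => ?_
  refine Fin.cases ?_ (fun l => ?_) x
  · rw [Equiv.Perm.mul_apply, Equiv.swap_apply_left, mk_zero, mk_succ]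
    simp
  · rw [Equiv.Perm.mul_apply]
    by_cases h : l = σ.symm k
    · subst h
      rw [Equiv.swap_apply_right, mk_zero, mk_succ]
      simp
    · rw [Equiv.swap_apply_of_ne_of_ne (Fin.succ_ne_zero l) (by simpa using h), mk_succ, mk_succ]
      have h2 : σ l ≠ k := by
        intro hc
        apply h
        rw [← hc, Equiv.symm_apply_apply]
      rcases lt_or_gt_of_ne h2 with h3 | h3
      · rw [Fin.succAbove_of_castSucc_lt _ _ (by
          rw [Fin.lt_def] at h3 ⊢
          simp only [Fin.val_castSucc, Fin.val_succ]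
          omega), Fin.succAbove_of_castSucc_lt _ _ (by
          rw [Fin.lt_def] at h3 ⊢
          simp only [Fin.val_castSucc]
          omega)]
      · rw [Fin.succAbove_of_le_castSucc _ _ (by
          rw [Fin.le_def]
          rw [Fin.lt_def] at h3
          simp only [Fin.val_castSucc, Fin.val_succ]
          omega), Fin.succAbove_of_le_castSucc _ _ (by
          rw [Fin.le_def]
          rw [Fin.lt_def] at h3
          simp only [Fin.val_castSucc]
          omega)]

theorem anti_mk {n : ℕ} (f : Equiv.Perm (Fin (n + 1)) → ℝ) (hf : Anti f) (k : Fin (n + 1)) :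
    Anti (fun σ => f (mk k σ)) := by
  intro ρ i j hij hρ
  show f (mk k (ρ * Equiv.swap i j)) ≤ f (mk k ρ)
  rw [mk_mul_swap]
  refine hf _ _ _ (Fin.succ_lt_succ_iff.mpr hij) ?_
  rw [mk_succ, mk_succ]
  exact (Fin.strictMono_succAbove k) hρ

theorem anti_step {n : ℕ} (f : Equiv.Perm (Fin (n + 1)) → ℝ) (hf : Anti f) :
    Antitone (fun k => ∑ σ, f (mk k σ)) := by
  rw [Fin.antitone_iff_succ_le]
  intro k
  refine Finset.sum_le_sum fun σ _ => ?_
  rw [mk_step]
  refine hf _ _ _ (Fin.succ_pos _) ?_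
  rw [mk_zero, mk_succ]
  simp

end CorrX

open CorrX

theorem corr : S_CORR := by
  intro N
  induction N with
  | zero =>
    intro f g _ _
    simp
  | succ n ih =>
    intro f g hf hg
    rw [sum_mk f, sum_mk g, sum_mk (fun ρ => f ρ * g ρ)]
    have h1 := ((anti_step f hf).monovary (anti_step g hg)).sum_mul_sum_le_card_mul_sum
    refine h1.trans ?_
    rw [Fintype.card_fin, Nat.factorial_succ, Nat.cast_mul, mul_assoc]
    refine mul_le_mul_of_nonneg_left ?_ (by positivity)
    rw [Finset.mul_sum]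
    refine Finset.sum_le_sum fun k _ => ?_
    exact ih _ _ (anti_mk f hf k) (anti_mk g hg k)

end Vale.Agent.P050
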