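import Vale.Agent.P050.Defs

/-! GRIF: Griffiths inequality. -/

namespace Vale.Agent.P050

open Finset

namespace GrifX

variable {S ι : Type} [Fintype S] [DecidableEq S]

theorem prod_add_single (f : S → ℝ) (n : S → ℕ) (a : S) :
    ∏ w, f w ^ (n w + if w = a then 1 else 0) = (∏ w, f w ^ n w) * f a := by
  simp_rw [pow_add]
  rw [Finset.prod_mul_distrib]
  congr 1
  have : ∀ w, f w ^ (if w = a then 1 else 0) = if w = a then f w else 1 := by
    intro w
    by_cases h : w = a <;> simp [h]
  simp_rw [this]
  simp

theorem base (n : S → ℕ) : 0 ≤ ∑ s : S → Bool, ∏ w, sg (s w) ^ n w := by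
  have h := Finset.prod_univ_sum (fun _ : S => (univ : Finset Bool)) (fun w b => sg b ^ n w)
  rw [Fintype.piFinset_univ] at h
  rw [← h]
  refine Finset.prod_nonneg fun w _ => ?_
  rw [Fintype.sum_bool]
  simp only [sg, if_true, one_pow]
  rcases neg_one_pow_eq_or ℝ (n w) with h1 | h1
  · simp [h1]
  · simp [h1]

theorem general (E : Finset ι) (a b : ι → S) (p m : ι → ℝ) :
    (∀ e ∈ E, 0 ≤ m e ∧ m e ≤ p e) → ∀ n : S → ℕ,
      0 ≤ ∑ s : S → Bool, (∏ w, sg (s w) ^ n w) *
        ∏ e ∈ E, (if s (a e) = s (b e) then p e else m e) := by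
  classical
  induction E using Finset.induction_on with
  | empty =>
    intro _ n
    simpa using base n
  | insert e E he ih =>
    intro h n
    have hE := ih (fun e' he' => h e' (Finset.mem_insert_of_mem he'))
    have h1 := hE n
    have h2 := hE (fun w => (n w + if w = a e then 1 else 0) + if w = b e then 1 else 0)
    have h3 := h e (Finset.mem_insert_self e E)
    have h4 : ∀ s : S → Bool, (∏ w, sg (s w) ^ n w) *
        ∏ e' ∈ insert e E, (if s (a e') = s (b e') then p e' else m e') =
        (p e + m e) / 2 * ((∏ w, sg (s w) ^ n w) *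
          ∏ e' ∈ E, (if s (a e') = s (b e') then p e' else m e')) +
        (p e - m e) / 2 * ((∏ w, sg (s w) ^
            ((n w + if w = a e then 1 else 0) + if w = b e then 1 else 0)) *
          ∏ e' ∈ E, (if s (a e') = s (b e') then p e' else m e')) := by
      intro s
      rw [Finset.prod_insert he, prod_add_single (fun w => sg (s w))
        (fun w => n w + if w = a e then 1 else 0) (b e),
        prod_add_single (fun w => sg (s w)) n (a e)]
      have h5 : (if s (a e) = s (b e) then p e else m e) =
          (p e + m e) / 2 + (p e - m e) / 2 * (sg (s (a e)) * sg (s (b e))) := by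
        cases s (a e) <;> cases s (b e) <;> simp [sg] <;> ring
      rw [h5]
      ring
    rw [Finset.sum_congr rfl fun s _ => h4 s, Finset.sum_add_distrib, ← Finset.mul_sum,
      ← Finset.mul_sum]
    have h6 : 0 ≤ (p e + m e) / 2 := by linarith
    have h7 : 0 ≤ (p e - m e) / 2 := by linarith
    exact add_nonneg (mul_nonneg h6 h1) (mul_nonneg h7 h2)

end GrifX

open GrifX

theorem grif : S_GRIF := by
  intro S ι _ _ E a b p m h u v
  have h1 := general E a b p m h
    (fun w => ((fun _ => 0 : S → ℕ) w + if w = u then 1 else 0) + if w = v then 1 else 0)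
  refine h1.trans (le_of_eq ?_)
  refine Finset.sum_congr rfl fun s _ => ?_
  rw [prod_add_single (fun w => sg (s w)) (fun w => (fun _ => 0 : S → ℕ) w +
    if w = u then 1 else 0) v, prod_add_single (fun w => sg (s w)) (fun _ => 0) u]
  simp

end Vale.Agent.P050
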