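import Vale.Agent.P050.Anti

/-!
# P050: GSUM
-/

namespace Vale.Agent.P050
namespace GsumAux

open Finset AntiAux

theorem key {U V : Type} [Fintype U] [Fintype V] [DecidableEq U] [DecidableEq V] {N : ℕ}
    (Φ : (U → Equiv.Perm (Fin N)) → (V → Equiv.Perm (Fin N)) → ℝ)
    (hΦ : ∀ τ κ c, Φ (fun w => τ w * c) (fun w => κ w * c) = Φ τ κ) (u : U) (v : V) :
    ∑ τ, ∑ κ, Φ τ κ = (N.factorial : ℝ) *
      ∑ ρ : Equiv.Perm (Fin N), ∑ τ : U → Equiv.Perm (Fin N), ∑ κ : V → Equiv.Perm (Fin N),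
        if κ v = 1 ∧ τ u = ρ then Φ τ κ else 0 := by
  have h1 : ∑ τ, ∑ κ, Φ τ κ = ∑ c : Equiv.Perm (Fin N), ∑ τ : U → Equiv.Perm (Fin N),
      ∑ κ : V → Equiv.Perm (Fin N), if κ v = c then Φ τ κ else 0 := by
    symm
    rw [sum_comm]
    apply sum_congr rfl
    intro τ _
    rw [sum_comm]
    apply sum_congr rfl
    intro κ _
    rw [sum_ite_eq]
    simp
  have h2 : ∀ c : Equiv.Perm (Fin N), (∑ τ : U → Equiv.Perm (Fin N),
      ∑ κ : V → Equiv.Perm (Fin N), if κ v = c then Φ τ κ else 0) =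
      ∑ τ : U → Equiv.Perm (Fin N),
      ∑ κ : V → Equiv.Perm (Fin N), if κ v = 1 then Φ τ κ else 0 := by
    intro c
    rw [← Equiv.sum_comp (Equiv.piCongrRight fun _ : U => Equiv.mulRight c)]
    apply sum_congr rfl
    intro τ _
    rw [← Equiv.sum_comp (Equiv.piCongrRight fun _ : V => Equiv.mulRight c)]
    apply sum_congr rfl
    intro κ _
    have e1 : (Equiv.piCongrRight fun _ : V => Equiv.mulRight c) κ = fun w => κ w * c := rfl
    have e2 : (Equiv.piCongrRight fun _ : U => Equiv.mulRight c) τ = fun w => τ w * c := rfl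
    rw [e1, e2, hΦ]
    have e3 : (κ v * c = c) ↔ κ v = 1 := mul_eq_right
    simp only [e3]
  have h3 : (∑ ρ : Equiv.Perm (Fin N), ∑ τ : U → Equiv.Perm (Fin N),
      ∑ κ : V → Equiv.Perm (Fin N), if κ v = 1 ∧ τ u = ρ then Φ τ κ else 0) =
      ∑ τ : U → Equiv.Perm (Fin N),
      ∑ κ : V → Equiv.Perm (Fin N), if κ v = 1 then Φ τ κ else 0 := by
    rw [sum_comm]
    apply sum_congr rfl
    intro τ _
    rw [sum_comm]
    apply sum_congr rfl
    intro κ _
    by_cases h : κ v = 1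
    · simp [h]
    · simp [h]
  rw [h1, sum_congr rfl fun c _ => h2 c, sum_const, h3, nsmul_eq_mul, card_univ,
    Fintype.card_perm, Fintype.card_fin]

end GsumAux

open Finset AntiAux GsumAux in
theorem gsum : S_GSUM := by
  intro U V _ _ _ _ E N q r W z z' u v
  constructor
  · unfold G R
    apply key (fun τ κ => ∏ e ∈ E, ff W z z' (τ e.1) (κ e.2))
    intro τ κ c
    simp only [ff_mul]
  · intro he
    unfold G R
    rw [key (fun τ κ => ∏ e ∈ insert (u, v) E, ff W z z' (τ e.1) (κ e.2)) (by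
      intro τ κ c
      simp only [ff_mul]) u v]
    congr 1
    apply sum_congr rfl
    intro ρ _
    rw [sum_mul]
    apply sum_congr rfl
    intro τ _
    rw [sum_mul]
    apply sum_congr rfl
    intro κ _
    rw [ite_mul, zero_mul, prod_insert he]
    split_ifs with h
    · show ff W z z' (τ u) (κ v) * _ = _
      rw [h.1, h.2, mul_comm]
    · rfl

end Vale.Agent.P050
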