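import Vale.Agent.P050.Anti

/-!
# P050: HANT
-/

namespace Vale.Agent.P050

open Finset AntiAux in
theorem hant : S_HANT := by
  intro N q r W z z' hT hW hz hz' ρ i j hij hρ
  have hc : Equiv.swap i j * Equiv.swap i j = (1 : Equiv.Perm (Fin N)) := Equiv.swap_mul_self i j
  have h := ff_tp W hT hW z z' hz hz' ρ 1 i j hij.ne hρ hij
  show ff W z z' (ρ * Equiv.swap i j) 1 ≤ ff W z z' ρ 1
  have h2 := ff_mul W z z' ρ (1 * Equiv.swap i j) (Equiv.swap i j)
  rw [mul_assoc, hc, mul_one] at h2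
  rw [h2]
  exact h

end Vale.Agent.P050
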