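import Vale.Agent.P050.Defs

/-!
# P050: IND
-/

namespace Vale.Agent.P050

open Finset in
theorem ind (hC : S_CORR) (hA : S_ANTI) (hH : S_HANT) (hS : S_GSUM) : S_IND := by
  intro U V _ _ _ _ E N q r W z z' hT hW hz hz'
  have hP : 0 ≤ ∑ ρ, ff W z z' ρ 1 := sum_nonneg fun ρ _ => prod_nonneg fun l _ => hW _ _
  have hF : (0 : ℝ) < (N.factorial : ℝ) := by exact_mod_cast Nat.factorial_pos N
  induction E using Finset.induction_on with
  | empty =>
    simp only [card_empty, pow_zero, one_mul]
    unfold G
    simp only [prod_empty, sum_const, nsmul_eq_mul, mul_one, card_univ, Fintype.card_pi,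
      Fintype.card_perm, Fintype.card_fin, prod_const]
    push_cast
    rw [← pow_add]
  | insert e E he ih =>
    obtain ⟨u, v⟩ := e
    obtain ⟨h1, h2⟩ := hS U V E N q r W z z' u v
    have h3 := h2 he
    have h4 := hC N _ _ (hA U V E N q r W z z' hT hW hz hz' u v) (hH N q r W z z' hT hW hz hz')
    rw [card_insert_of_notMem he, h3]
    rw [h1] at ih
    generalize (∑ ρ, R E W z z' u v ρ * ff W z z' ρ 1) = A at *
    generalize (∑ ρ, R E W z z' u v ρ) = B at *
    generalize (∑ ρ, ff W z z' ρ 1) = P at *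
    generalize (N.factorial : ℝ) = F at *
    calc P ^ (E.card + 1) * F ^ (Fintype.card U + Fintype.card V)
        = P * (P ^ E.card * F ^ (Fintype.card U + Fintype.card V)) := by ring
      _ ≤ P * (F ^ E.card * (F * B)) := mul_le_mul_of_nonneg_left ih hP
      _ = F ^ (E.card + 1) * (B * P) := by ring
      _ ≤ F ^ (E.card + 1) * (F * A) := mul_le_mul_of_nonneg_left h4 (pow_nonneg hF.le _)

end Vale.Agent.P050
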