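import Vale.Agent.P050.Defs

/-! P050 ISO: removal of isolated vertices. -/

namespace Vale.Agent.P050

open Finset

namespace IsoX

/-- sums of functions of the restriction -/
theorem restr {U : Type} [Fintype U] [DecidableEq U] (p : U → Prop) [DecidablePred p]
    [I1 : Fintype {u // p u}] [I2 : DecidableEq {u // p u}] {q : ℕ}
    (μ : Fin q → ℝ) (hμ : ∑ a, μ a = 1) (f : ({u // p u} → Fin q) → ℝ) :
    ∑ x : U → Fin q, (∏ u, μ (x u)) * f (fun u => x u) =
      ∑ x : {u // p u} → Fin q, (∏ u, μ (x u)) * f x := by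
  have hI1 : I1 = Subtype.fintype p := Subsingleton.elim _ _
  subst hI1
  have h1 : ∑ x : U → Fin q, (∏ u, μ (x u)) * f (fun u => x u) =
      ∑ w : ({u // p u} → Fin q) × ({u // ¬ p u} → Fin q),
        ((∏ u, μ (w.1 u)) * ∏ u, μ (w.2 u)) * f w.1 := by
    refine Fintype.sum_equiv (Equiv.piEquivPiSubtypeProd p fun _ => Fin q) _ _ fun x => ?_
    congr 1
    exact (Fintype.prod_subtype_mul_prod_subtype p fun u => μ (x u)).symm
  rw [h1, Fintype.sum_prod_type]
  refine sum_congr rfl fun x _ => ?_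
  have h2 : ∑ w : {u // ¬ p u} → Fin q, ∏ u, μ (w u) = 1 := by
    have := Finset.prod_univ_sum (fun _ : {u // ¬ p u} => (univ : Finset (Fin q)))
      (fun _ a => μ a)
    rw [Fintype.piFinset_univ] at this
    rw [← this]
    simp [hμ]
  calc ∑ y : {u // ¬ p u} → Fin q, ((∏ u, μ (x u)) * ∏ u, μ (y u)) * f x
      = (∏ u, μ (x u)) * f x * ∑ y : {u // ¬ p u} → Fin q, ∏ u, μ (y u) := by
        rw [mul_sum]
        refine sum_congr rfl fun y _ => ?_
        ring
    _ = _ := by rw [h2, mul_one]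

end IsoX

open IsoX in
theorem iso : S_ISO := by
  intro U V _ _ _ _ E
  classical
  refine ⟨{u // u ∈ E.image Prod.fst}, {v // v ∈ E.image Prod.snd}, inferInstance, inferInstance,
    inferInstance, inferInstance, univ.filter fun p => ((p.1 : U), (p.2 : V)) ∈ E, ?_, ?_, ?_, ?_⟩
  · refine card_bij (fun p _ => ((p.1 : U), (p.2 : V))) ?_ ?_ ?_
    · intro p hp
      exact (mem_filter.mp hp).2
    · rintro ⟨⟨a, ha⟩, ⟨b, hb⟩⟩ _ ⟨⟨c, hc⟩, ⟨d, hd⟩⟩ _ h
      simp only [Prod.mk.injEq] at h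
      obtain ⟨h1, h2⟩ := h
      subst h1; subst h2; rfl
    · intro e he
      refine ⟨(⟨e.1, mem_image_of_mem _ he⟩, ⟨e.2, mem_image_of_mem _ he⟩), ?_, rfl⟩
      rw [mem_filter]
      exact ⟨mem_univ _, he⟩
  · rw [Fintype.card_coe]; exact card_image_le
  · rw [Fintype.card_coe]; exact card_image_le
  · intro q r μ ν W hμ hν
    have hprod : ∀ (x : U → Fin q) (y : V → Fin r), ∏ e ∈ E, W (x e.1) (y e.2) =
        ∏ e ∈ (univ.filter fun p : {u // u ∈ E.image Prod.fst} × {v // v ∈ E.image Prod.snd} =>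
          ((p.1 : U), (p.2 : V)) ∈ E), W (x e.1) (y e.2) := by
      intro x y
      symm
      refine prod_bij (fun p _ => ((p.1 : U), (p.2 : V))) ?_ ?_ ?_ ?_
      · intro p hp
        exact (mem_filter.mp hp).2
      · rintro ⟨⟨a, ha⟩, ⟨b, hb⟩⟩ _ ⟨⟨c, hc⟩, ⟨d, hd⟩⟩ _ h
        simp only [Prod.mk.injEq] at h
        obtain ⟨h1, h2⟩ := h
        subst h1; subst h2; rfl
      · intro e he
        refine ⟨(⟨e.1, mem_image_of_mem _ he⟩, ⟨e.2, mem_image_of_mem _ he⟩), ?_, rfl⟩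
        rw [mem_filter]
        exact ⟨mem_univ _, he⟩
      · intro p _
        rfl
    unfold Z
    have e1 : ∀ x : U → Fin q, ∑ y : V → Fin r,
        (∏ u, μ (x u)) * (∏ v, ν (y v)) * ∏ e ∈ E, W (x e.1) (y e.2) =
        (∏ u, μ (x u)) * ∑ y : {v // v ∈ E.image Prod.snd} → Fin r, (∏ v, ν (y v)) *
          ∏ e ∈ (univ.filter fun p : {u // u ∈ E.image Prod.fst} ×
            {v // v ∈ E.image Prod.snd} => ((p.1 : U), (p.2 : V)) ∈ E), W (x e.1) (y e.2) := by
      intro x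
      rw [← restr (fun v => v ∈ E.image Prod.snd) ν hν (fun y =>
        ∏ e ∈ (univ.filter fun p : {u // u ∈ E.image Prod.fst} ×
            {v // v ∈ E.image Prod.snd} => ((p.1 : U), (p.2 : V)) ∈ E), W (x e.1) (y e.2)),
        mul_sum]
      refine sum_congr rfl fun y _ => ?_
      rw [hprod x y]
      ring
    rw [sum_congr rfl fun x _ => e1 x]
    rw [restr (fun u => u ∈ E.image Prod.fst) μ hμ (fun x =>
      ∑ y : {v // v ∈ E.image Prod.snd} → Fin r, (∏ v, ν (y v)) *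
          ∏ e ∈ (univ.filter fun p : {u // u ∈ E.image Prod.fst} ×
            {v // v ∈ E.image Prod.snd} => ((p.1 : U), (p.2 : V)) ∈ E), W (x e.1) (y e.2))]
    refine sum_congr rfl fun x _ => ?_
    rw [mul_sum]
    refine sum_congr rfl fun y _ => ?_
    ring

end Vale.Agent.P050
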