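import Vale.Agent.P050.Defs

/-! LIM: removing a polynomial loss. -/

namespace Vale.Agent.P050

open Finset Filter Topology

theorem lim : S_LIM := by
  intro c d k hc hd h
  by_contra hlt
  push Not at hlt
  rcases hc.eq_or_lt with h0 | h0
  · have h1 := h 1
    rw [← h0] at h1
    simp at h1
    linarith
  · have hr : 1 < d / c := by rwa [one_lt_div h0]
    have h1 := tendsto_pow_const_div_const_pow_of_one_lt k hr
    have h2 := h1.comp (tendsto_add_atTop_nat 1)
    have h3 : ∀ N : ℕ, c / d ≤ ((fun n : ℕ => (n : ℝ) ^ k / (d / c) ^ n) ∘ fun a => a + 1) N := by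
      intro N
      simp only [Function.comp]
      have h4 := h N
      have h5 : 0 < (d / c) ^ (N + 1) := by positivity
      rw [le_div_iff₀ h5, pow_succ]
      have h6 : c / d * ((d / c) ^ N * (d / c)) = (d / c) ^ N := by
        have : d ≠ 0 := by linarith
        field_simp
      rw [h6, div_pow, div_le_iff₀ (by positivity)]
      push_cast
      exact h4
    have h4 : c / d ≤ 0 := ge_of_tendsto' h2 h3
    have h5 : 0 < c / d := div_pos h0 (by linarith)
    linarith

end Vale.Agent.P050
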