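import Vale.Agent.P050.Defs

/-! P050 ORB. -/

namespace Vale.Agent.P050

open Finset

namespace OrbX

theorem mem_typ {N q : ℕ} {z x : Fin N → Fin q} :
    x ∈ typ z ↔ ∃ σ : Equiv.Perm (Fin N), (fun l => z (σ l)) = x := by
  unfold typ
  rw [mem_image]
  constructor
  · rintro ⟨σ, -, h⟩; exact ⟨σ, h⟩
  · rintro ⟨σ, h⟩; exact ⟨σ, mem_univ _, h⟩

theorem fib {N q : ℕ} (z x : Fin N → Fin q) (hx : x ∈ typ z) :
    (univ.filter fun σ : Equiv.Perm (Fin N) => (fun l => z (σ l)) = x).card =
      (univ.filter fun σ : Equiv.Perm (Fin N) => (fun l => z (σ l)) = z).card := by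
  obtain ⟨σ0, rfl⟩ := mem_typ.mp hx
  refine card_bij (fun σ _ => σ * σ0⁻¹) ?_ ?_ ?_
  · intro σ hσ
    rw [mem_filter] at hσ ⊢
    refine ⟨mem_univ _, ?_⟩
    funext l
    have h := congrFun hσ.2 (σ0⁻¹ l)
    simpa using h
  · intro σ _ ρ _ h
    exact mul_right_cancel h
  · intro ρ hρ
    rw [mem_filter] at hρ
    refine ⟨ρ * σ0, ?_, by simp⟩
    rw [mem_filter]
    refine ⟨mem_univ _, ?_⟩
    funext l
    have h := congrFun hρ.2 (σ0 l)
    simpa using h

end OrbX

open OrbX in
theorem orb : S_ORB := by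
  intro N q z
  classical
  set s := (univ.filter fun σ : Equiv.Perm (Fin N) => (fun l => z (σ l)) = z).card with hs
  refine ⟨s, ?_, ?_, ?_⟩
  · rw [hs, card_pos]
    exact ⟨1, by simp⟩
  · have h := card_eq_sum_card_image
      (fun σ : Equiv.Perm (Fin N) => fun l => z (σ l)) (univ : Finset (Equiv.Perm (Fin N)))
    rw [card_univ, Fintype.card_perm, Fintype.card_fin] at h
    rw [h]
    have h2 : ∀ x ∈ (univ : Finset (Equiv.Perm (Fin N))).image (fun σ => fun l => z (σ l)),
        (univ.filter fun σ : Equiv.Perm (Fin N) => (fun l => z (σ l)) = x).card = s := by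
      intro x hx
      exact fib z x hx
    rw [sum_congr rfl h2, sum_const, smul_eq_mul, mul_comm]
    rfl
  · intro U _ _ F
    have hmap : ∀ τ ∈ (univ : Finset (U → Equiv.Perm (Fin N))),
        (fun u l => z (τ u l)) ∈ Fintype.piFinset (fun _ : U => typ z) := by
      intro τ _
      rw [Fintype.mem_piFinset]
      intro u
      exact mem_typ.mpr ⟨τ u, rfl⟩
    rw [← sum_fiberwise_of_maps_to hmap, mul_sum]
    refine sum_congr rfl fun x hx => ?_
    have h1 : ∀ τ ∈ (univ : Finset (U → Equiv.Perm (Fin N))).filter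
        (fun τ => (fun u l => z (τ u l)) = x), F (fun u l => z (τ u l)) = F x := by
      intro τ hτ
      rw [(mem_filter.mp hτ).2]
    rw [sum_congr rfl h1, sum_const, nsmul_eq_mul]
    congr 1
    have h2 : ((univ : Finset (U → Equiv.Perm (Fin N))).filter
        (fun τ => (fun u l => z (τ u l)) = x)) =
        Fintype.piFinset fun u => univ.filter fun σ : Equiv.Perm (Fin N) =>
          (fun l => z (σ l)) = x u := by
      ext τ
      rw [mem_filter, Fintype.mem_piFinset]
      constructor
      · rintro ⟨-, h⟩ u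
        rw [mem_filter]
        exact ⟨mem_univ _, congrFun h u⟩
      · intro h
        refine ⟨mem_univ _, funext fun u => ?_⟩
        exact (mem_filter.mp (h u)).2
    rw [h2, Fintype.card_piFinset]
    rw [Fintype.mem_piFinset] at hx
    rw [prod_congr rfl fun u _ => fib z (x u) (hx u), prod_const, card_univ]
    push_cast
    rfl

end Vale.Agent.P050
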