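import Vale.Agent.P050.Defs

/-! P050 PIG. -/

namespace Vale.Agent.P050

open Finset

namespace PigX

theorem mem_typ {N q : ℕ} {z x : Fin N → Fin q} :
    x ∈ typ z ↔ ∃ σ : Equiv.Perm (Fin N), (fun l => z (σ l)) = x := by
  unfold typ
  rw [mem_image]
  constructor
  · rintro ⟨σ, -, h⟩; exact ⟨σ, h⟩
  · rintro ⟨σ, h⟩; exact ⟨σ, mem_univ _, h⟩

/-- sorted version -/
def srt {N q : ℕ} (x : Fin N → Fin q) : Fin N → Fin q := fun l => x (Tuple.sort x l)

theorem srt_mono {N q : ℕ} (x : Fin N → Fin q) : Monotone (srt x) := Tuple.monotone_sort x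

theorem mem_typ_srt {N q : ℕ} (x : Fin N → Fin q) : x ∈ typ (srt x) := by
  rw [mem_typ]
  refine ⟨(Tuple.sort x)⁻¹, ?_⟩
  funext l
  unfold srt
  simp

open Classical in
noncomputable def Mon (N q : ℕ) : Finset (Fin N → Fin q) := univ.filter fun z => Monotone z

theorem mem_Mon {N q : ℕ} {z : Fin N → Fin q} : z ∈ Mon N q ↔ Monotone z := by
  classical
  unfold Mon; rw [mem_filter]; simp

/-- initial segments -/
theorem lt_iff {N q : ℕ} {z : Fin N → Fin q} (hz : Monotone z) (a : Fin q) (l : Fin N) :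
    z l < a ↔ (l : ℕ) < (univ.filter fun l : Fin N => z l < a).card := by
  constructor
  · intro h
    have h1 : Finset.Iic l ⊆ univ.filter fun l : Fin N => z l < a := by
      intro l' hl'
      rw [Finset.mem_Iic] at hl'
      rw [mem_filter]
      exact ⟨mem_univ _, lt_of_le_of_lt (hz hl') h⟩
    have h2 := card_le_card h1
    rw [Fin.card_Iic] at h2
    omega
  · intro h
    by_contra hcon
    have h1 : (univ.filter fun l : Fin N => z l < a) ⊆ Finset.Iio l := by
      intro l' hl'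
      rw [mem_filter] at hl'
      rw [Finset.mem_Iio]
      by_contra h3
      exact hcon (lt_of_le_of_lt (hz (not_lt.mp h3)) hl'.2)
    have h2 := card_le_card h1
    rw [Fin.card_Iio] at h2
    omega

theorem card_Mon (N q : ℕ) : (Mon N q).card ≤ (N + 1) ^ q := by
  classical
  have h : (Mon N q).card ≤ (univ : Finset (Fin q → Fin (N + 1))).card := by
    refine card_le_card_of_injOn (fun z a => ⟨(univ.filter fun l : Fin N => z l < a).card, ?_⟩)
      (fun _ _ => mem_coe.mpr (mem_univ _)) ?_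
    · have := card_filter_le (univ : Finset (Fin N)) (fun l => z l < a)
      rw [card_univ, Fintype.card_fin] at this
      omega
    · intro z hz z' hz' h
      rw [mem_coe, mem_Mon] at hz hz'
      have hc : ∀ a, (univ.filter fun l : Fin N => z l < a).card =
          (univ.filter fun l : Fin N => z' l < a).card := by
        intro a
        have := congrFun h a
        exact congrArg Fin.val this
      funext l
      rcases lt_trichotomy (z l) (z' l) with h1 | h1 | h1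
      · have h2 := (lt_iff hz (z' l) l).mp h1
        rw [hc] at h2
        exact absurd ((lt_iff hz' (z' l) l).mpr h2) (lt_irrefl _)
      · exact h1
      · have h2 := (lt_iff hz' (z l) l).mp h1
        rw [← hc] at h2
        exact absurd ((lt_iff hz (z l) l).mpr h2) (lt_irrefl _)
  rw [card_univ, Fintype.card_fun, Fintype.card_fin, Fintype.card_fin] at h
  exact h

/-- grouping by types -/
theorem group {N q : ℕ} (f : (Fin N → Fin q) → ℝ) (hf : ∀ x, 0 ≤ f x) :
    ∑ x, f x ≤ ∑ z ∈ Mon N q, ∑ x ∈ typ z, f x := by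
  classical
  have hmap : ∀ x ∈ (univ : Finset (Fin N → Fin q)), srt x ∈ Mon N q := fun x _ =>
    mem_Mon.mpr (srt_mono x)
  rw [← sum_fiberwise_of_maps_to hmap]
  refine sum_le_sum fun z _ => ?_
  refine sum_le_sum_of_subset_of_nonneg ?_ fun x _ _ => hf x
  intro x hx
  rw [mem_filter] at hx
  rw [← hx.2]
  exact mem_typ_srt x

theorem prod_typ {N q : ℕ} (μ : Fin q → ℝ) {z x : Fin N → Fin q} (hx : x ∈ typ z) :
    ∏ l, μ (x l) = ∏ l, μ (z l) := by
  obtain ⟨σ, rfl⟩ := mem_typ.mp hx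
  exact Equiv.prod_comp σ fun l => μ (z l)

theorem pr_eq {N q : ℕ} (μ : Fin q → ℝ) (z : Fin N → Fin q) :
    pr μ z = (typ z).card * ∏ l, μ (z l) := by
  unfold pr
  rw [sum_congr rfl fun x hx => prod_typ μ hx, sum_const, nsmul_eq_mul]

theorem pr_nonneg {N q : ℕ} {μ : Fin q → ℝ} (hμ : ∀ a, 0 ≤ μ a) (z : Fin N → Fin q) :
    0 ≤ pr μ z := sum_nonneg fun _ _ => prod_nonneg fun _ _ => hμ _

theorem pr_le_one {N q : ℕ} {μ : Fin q → ℝ} (hμ : ∀ a, 0 ≤ μ a) (h1 : ∑ a, μ a = 1)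
    (z : Fin N → Fin q) : pr μ z ≤ 1 := by
  unfold pr
  calc ∑ x ∈ typ z, ∏ l, μ (x l) ≤ ∑ x : Fin N → Fin q, ∏ l, μ (x l) :=
        sum_le_sum_of_subset_of_nonneg (subset_univ _) fun _ _ _ => prod_nonneg fun _ _ => hμ _
    _ = (∑ a, μ a) ^ N := (Fintype.sum_pow μ N).symm
    _ = 1 := by rw [h1, one_pow]

/-- sums over pairs of rearrangements -/
theorem pair_sum (hO : S_ORB) {N q r : ℕ} (W : Fin q → Fin r → ℝ) (z : Fin N → Fin q)
    (z' : Fin N → Fin r) :
    (N.factorial : ℝ) * (N.factorial : ℝ) *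
      ∑ x ∈ typ z, ∑ y ∈ typ z', ∏ l, W (x l) (y l) =
      ((typ z).card : ℝ) * (typ z').card * ((N.factorial : ℝ) * ∑ ρ, ff W z z' ρ 1) := by
  obtain ⟨s, hs, hs1, hs2⟩ := hO N q z
  obtain ⟨s', hs', hs1', hs2'⟩ := hO N r z'
  have one : ∀ (F : (Fin N → Fin q) → ℝ), ∑ σ : Equiv.Perm (Fin N), F (fun l => z (σ l)) =
      s * ∑ x ∈ typ z, F x := by
    intro F
    have h := hs2 Unit (fun x => F (x ()))
    rw [Fintype.card_unit, pow_one] at h
    have e1 : ∑ τ : Unit → Equiv.Perm (Fin N), F (fun l => z (τ () l)) =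
        ∑ σ : Equiv.Perm (Fin N), F (fun l => z (σ l)) :=
      Fintype.sum_equiv (Equiv.funUnique Unit _) _ _ fun τ => rfl
    rw [e1] at h
    rw [h]
    congr 1
    refine sum_bij (fun x _ => x ()) ?_ ?_ ?_ ?_
    · intro x hx
      exact Fintype.mem_piFinset.mp hx ()
    · intro x _ y _ hxy
      funext u
      exact hxy
    · intro x hx
      exact ⟨fun _ => x, Fintype.mem_piFinset.mpr fun _ => hx, rfl⟩
    · intro x _
      rfl
  have one' : ∀ (F : (Fin N → Fin r) → ℝ), ∑ σ : Equiv.Perm (Fin N), F (fun l => z' (σ l)) =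
      s' * ∑ x ∈ typ z', F x := by
    intro F
    have h := hs2' Unit (fun x => F (x ()))
    rw [Fintype.card_unit, pow_one] at h
    have e1 : ∑ τ : Unit → Equiv.Perm (Fin N), F (fun l => z' (τ () l)) =
        ∑ σ : Equiv.Perm (Fin N), F (fun l => z' (σ l)) :=
      Fintype.sum_equiv (Equiv.funUnique Unit _) _ _ fun τ => rfl
    rw [e1] at h
    rw [h]
    congr 1
    refine sum_bij (fun x _ => x ()) ?_ ?_ ?_ ?_
    · intro x hx
      exact Fintype.mem_piFinset.mp hx ()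
    · intro x _ y _ hxy
      funext u
      exact hxy
    · intro x hx
      exact ⟨fun _ => x, Fintype.mem_piFinset.mpr fun _ => hx, rfl⟩
    · intro x _
      rfl
  have hff : ∀ κ : Equiv.Perm (Fin N), ∑ σ, ff W z z' σ κ = ∑ ρ, ff W z z' ρ 1 := by
    intro κ
    refine Fintype.sum_equiv (Equiv.mulRight κ⁻¹) _ _ fun σ => ?_
    unfold ff
    rw [← Equiv.prod_comp κ (fun l => W (z ((Equiv.mulRight κ⁻¹ σ) l))
      (z' ((1 : Equiv.Perm (Fin N)) l)))]
    refine prod_congr rfl fun l _ => ?_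
    simp
  have hdouble : ∑ κ : Equiv.Perm (Fin N), ∑ σ : Equiv.Perm (Fin N), ff W z z' σ κ =
      (s : ℝ) * s' * ∑ x ∈ typ z, ∑ y ∈ typ z', ∏ l, W (x l) (y l) := by
    have e1 : ∀ κ : Equiv.Perm (Fin N), ∑ σ : Equiv.Perm (Fin N), ff W z z' σ κ =
        s * ∑ x ∈ typ z, ∏ l, W (x l) (z' (κ l)) := fun κ =>
      one fun x => ∏ l, W (x l) (z' (κ l))
    rw [sum_congr rfl fun κ _ => e1 κ]
    have e2 := one' fun y => (s : ℝ) * ∑ x ∈ typ z, ∏ l, W (x l) (y l)
    rw [e2, ← mul_sum, sum_comm]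
    ring
  have hcount : ∑ κ : Equiv.Perm (Fin N), ∑ σ : Equiv.Perm (Fin N), ff W z z' σ κ =
      (N.factorial : ℝ) * ∑ ρ, ff W z z' ρ 1 := by
    rw [sum_congr rfl fun κ _ => hff κ, sum_const, card_univ, Fintype.card_perm,
      Fintype.card_fin, nsmul_eq_mul]
  have h1 : (s : ℝ) * (typ z).card = N.factorial := by exact_mod_cast hs1
  have h2 : (s' : ℝ) * (typ z').card = N.factorial := by exact_mod_cast hs1'
  rw [← hcount, hdouble]
  calc (N.factorial : ℝ) * (N.factorial : ℝ) * ∑ x ∈ typ z, ∑ y ∈ typ z', ∏ l, W (x l) (y l)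
      = ((s : ℝ) * (typ z).card) * ((s' : ℝ) * (typ z').card) *
          ∑ x ∈ typ z, ∑ y ∈ typ z', ∏ l, W (x l) (y l) := by rw [h1, h2]
    _ = _ := by ring

theorem expand {N q r : ℕ} (μ : Fin q → ℝ) (ν : Fin r → ℝ) (W : Fin q → Fin r → ℝ) :
    (∑ a, ∑ b, μ a * ν b * W a b) ^ N =
      ∑ x : Fin N → Fin q, ∑ y : Fin N → Fin r,
        (∏ l, μ (x l)) * (∏ l, ν (y l)) * ∏ l, W (x l) (y l) := by
  rw [← Fintype.sum_prod_type' (fun a b => μ a * ν b * W a b),
    Fintype.sum_pow (fun p : Fin q × Fin r => μ p.1 * ν p.2 * W p.1 p.2) N,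
    ← Fintype.sum_prod_type' (fun (x : Fin N → Fin q) (y : Fin N → Fin r) =>
      (∏ l, μ (x l)) * (∏ l, ν (y l)) * ∏ l, W (x l) (y l))]
  refine Fintype.sum_equiv (Equiv.arrowProdEquivProdArrow _ _ _) _ _ fun p => ?_
  simp only [prod_mul_distrib]
  rfl

end PigX

open PigX in
theorem pig (hO : S_ORB) : S_PIG := by
  intro N q r μ ν W hμ hν hW h1 h2
  classical
  have hq : 0 < q := by
    rcases Nat.eq_zero_or_pos q with h | h
    · subst h; simp at h1
    · exact h
  have hr : 0 < r := by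
    rcases Nat.eq_zero_or_pos r with h | h
    · subst h; simp at h2
    · exact h
  set H : (Fin N → Fin q) × (Fin N → Fin r) → ℝ := fun p =>
    pr μ p.1 * pr ν p.2 * ∑ ρ, ff W p.1 p.2 ρ 1 with hH
  have hne : (Mon N q ×ˢ Mon N r).Nonempty := by
    refine ⟨(fun _ => ⟨0, hq⟩, fun _ => ⟨0, hr⟩), ?_⟩
    rw [mem_product, mem_Mon, mem_Mon]
    exact ⟨monotone_const, monotone_const⟩
  obtain ⟨p, hp, hmax⟩ := exists_max_image (Mon N q ×ˢ Mon N r) H hne
  rw [mem_product, mem_Mon, mem_Mon] at hp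
  refine ⟨p.1, p.2, hp.1, hp.2, pr_nonneg hμ _, pr_le_one hμ h1 _, pr_nonneg hν _,
    pr_le_one hν h2 _, ?_⟩
  have hNf : (0 : ℝ) < N.factorial := by exact_mod_cast N.factorial_pos
  have hHnn : 0 ≤ H p := by
    refine mul_nonneg (mul_nonneg (pr_nonneg hμ _) (pr_nonneg hν _)) ?_
    exact sum_nonneg fun ρ _ => prod_nonneg fun l _ => hW _ _
  have key : (N.factorial : ℝ) * (∑ a, ∑ b, μ a * ν b * W a b) ^ N ≤
      ∑ p' ∈ Mon N q ×ˢ Mon N r, H p' := by
    rw [expand]
    have e1 : ∑ x : Fin N → Fin q, ∑ y : Fin N → Fin r,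
        (∏ l, μ (x l)) * (∏ l, ν (y l)) * ∏ l, W (x l) (y l) ≤
        ∑ z ∈ Mon N q, ∑ x ∈ typ z, ∑ z' ∈ Mon N r, ∑ y ∈ typ z',
          (∏ l, μ (x l)) * (∏ l, ν (y l)) * ∏ l, W (x l) (y l) := by
      refine (group _ fun x => sum_nonneg fun y _ => ?_).trans ?_
      · exact mul_nonneg (mul_nonneg (prod_nonneg fun _ _ => hμ _)
          (prod_nonneg fun _ _ => hν _)) (prod_nonneg fun _ _ => hW _ _)
      · refine sum_le_sum fun z _ => sum_le_sum fun x _ => ?_
        refine group _ fun y => ?_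
        exact mul_nonneg (mul_nonneg (prod_nonneg fun _ _ => hμ _)
          (prod_nonneg fun _ _ => hν _)) (prod_nonneg fun _ _ => hW _ _)
    refine (mul_le_mul_of_nonneg_left e1 hNf.le).trans (le_of_eq ?_)
    rw [mul_sum, sum_product]
    refine sum_congr rfl fun z _ => ?_
    rw [sum_comm, mul_sum]
    refine sum_congr rfl fun z' _ => ?_
    have e2 : ∑ x ∈ typ z, ∑ y ∈ typ z',
        (∏ l, μ (x l)) * (∏ l, ν (y l)) * ∏ l, W (x l) (y l) =
        (∏ l, μ (z l)) * (∏ l, ν (z' l)) *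
          ∑ x ∈ typ z, ∑ y ∈ typ z', ∏ l, W (x l) (y l) := by
      rw [mul_sum]
      refine sum_congr rfl fun x hx => ?_
      rw [mul_sum]
      refine sum_congr rfl fun y hy => ?_
      rw [prod_typ μ hx, prod_typ ν hy]
    rw [e2]
    have e3 := pair_sum hO W z z'
    simp only [hH]
    rw [pr_eq, pr_eq]
    apply mul_left_cancel₀ hNf.ne'
    calc (N.factorial : ℝ) * (N.factorial * ((∏ l, μ (z l)) * (∏ l, ν (z' l)) *
          ∑ x ∈ typ z, ∑ y ∈ typ z', ∏ l, W (x l) (y l)))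
        = (∏ l, μ (z l)) * (∏ l, ν (z' l)) * ((N.factorial : ℝ) * (N.factorial : ℝ) *
          ∑ x ∈ typ z, ∑ y ∈ typ z', ∏ l, W (x l) (y l)) := by ring
      _ = _ := by rw [e3]; ring
  refine key.trans ?_
  have e4 : ∑ p' ∈ Mon N q ×ˢ Mon N r, H p' ≤ (Mon N q ×ˢ Mon N r).card • H p :=
    sum_le_card_nsmul _ _ _ hmax
  refine e4.trans ?_
  rw [nsmul_eq_mul, card_product]
  push_cast
  have e5 : ((Mon N q).card : ℝ) * (Mon N r).card ≤ ((N : ℝ) + 1) ^ (q + r) := by
    rw [pow_add]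
    have a1 : ((Mon N q).card : ℝ) ≤ ((N : ℝ) + 1) ^ q := by exact_mod_cast card_Mon N q
    have a2 : ((Mon N r).card : ℝ) ≤ ((N : ℝ) + 1) ^ r := by exact_mod_cast card_Mon N r
    exact mul_le_mul a1 a2 (by positivity) (by positivity)
  exact mul_le_mul_of_nonneg_right e5 hHnn

end Vale.Agent.P050
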