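import Vale.Agent.P050.Defs

/-! P050 POW. -/

namespace Vale.Agent.P050

open Finset

namespace PowX

theorem mem_typ {N q : ℕ} {z x : Fin N → Fin q} :
    x ∈ typ z ↔ ∃ σ : Equiv.Perm (Fin N), (fun l => z (σ l)) = x := by
  unfold typ
  rw [mem_image]
  constructor
  · rintro ⟨σ, -, h⟩; exact ⟨σ, h⟩
  · rintro ⟨σ, h⟩; exact ⟨σ, mem_univ _, h⟩

theorem prod_typ {N q : ℕ} (μ : Fin q → ℝ) {z x : Fin N → Fin q} (hx : x ∈ typ z) :
    ∏ l, μ (x l) = ∏ l, μ (z l) := by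
  obtain ⟨σ, rfl⟩ := mem_typ.mp hx
  exact Equiv.prod_comp σ fun l => μ (z l)

theorem pr_eq {N q : ℕ} (μ : Fin q → ℝ) (z : Fin N → Fin q) :
    pr μ z = (typ z).card * ∏ l, μ (z l) := by
  unfold pr
  rw [sum_congr rfl fun x hx => prod_typ μ hx, sum_const, nsmul_eq_mul]

/-- the `N`-th power of the partition function -/
theorem Zpow {U V : Type} [Fintype U] [Fintype V] [DecidableEq U] [DecidableEq V]
    (E : Finset (U × V)) (N : ℕ) {q r : ℕ} (μ : Fin q → ℝ) (ν : Fin r → ℝ)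
    (W : Fin q → Fin r → ℝ) :
    Z E μ ν W ^ N = ∑ x : U → Fin N → Fin q, ∑ y : V → Fin N → Fin r,
      (∏ u, ∏ l, μ (x u l)) * (∏ v, ∏ l, ν (y v l)) * ∏ e ∈ E, ∏ l, W (x e.1 l) (y e.2 l) := by
  unfold Z
  rw [← Fintype.sum_prod_type' (fun (x : U → Fin q) (y : V → Fin r) =>
      (∏ u, μ (x u)) * (∏ v, ν (y v)) * ∏ e ∈ E, W (x e.1) (y e.2)),
    Fintype.sum_pow (fun p : (U → Fin q) × (V → Fin r) =>
      (∏ u, μ (p.1 u)) * (∏ v, ν (p.2 v)) * ∏ e ∈ E, W (p.1 e.1) (p.2 e.2)) N,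
    ← Fintype.sum_prod_type' (fun (x : U → Fin N → Fin q) (y : V → Fin N → Fin r) =>
      (∏ u, ∏ l, μ (x u l)) * (∏ v, ∏ l, ν (y v l)) * ∏ e ∈ E, ∏ l, W (x e.1 l) (y e.2 l))]
  refine Fintype.sum_equiv ((Equiv.arrowProdEquivProdArrow _ _ _).trans
    ((Equiv.piComm _).prodCongr (Equiv.piComm _))) _ _ fun p => ?_
  simp only [prod_mul_distrib]
  rw [prod_comm (s := univ) (t := univ) (f := fun (l : Fin N) (u : U) => μ ((p l).1 u)),
    prod_comm (s := univ) (t := univ) (f := fun (l : Fin N) (v : V) => ν ((p l).2 v)),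
    prod_comm (s := univ) (t := E) (f := fun (l : Fin N) (e : U × V) =>
      W ((p l).1 e.1) ((p l).2 e.2))]
  rfl

end PowX

open PowX in
theorem pow (hO : S_ORB) : S_POW := by
  intro U V _ _ _ _ E N q r μ ν W z z' hμ hν hW
  classical
  obtain ⟨s, hs, hs1, hs2⟩ := hO N q z
  obtain ⟨s', hs', hs1', hs2'⟩ := hO N r z'
  have h1 : (s : ℝ) * (typ z).card = N.factorial := by exact_mod_cast hs1
  have h2 : (s' : ℝ) * (typ z').card = N.factorial := by exact_mod_cast hs1'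
  set T := ∑ x ∈ Fintype.piFinset (fun _ : U => typ z), ∑ y ∈ Fintype.piFinset (fun _ : V => typ z'),
    ∏ e ∈ E, ∏ l, W (x e.1 l) (y e.2 l) with hT
  -- the sum over alignments
  have hG : G E W z z' = (s : ℝ) ^ Fintype.card U * (s' : ℝ) ^ Fintype.card V * T := by
    unfold G ff
    have e1 : ∀ τ : U → Equiv.Perm (Fin N),
        ∑ κ : V → Equiv.Perm (Fin N), ∏ e ∈ E, ∏ l, W (z (τ e.1 l)) (z' (κ e.2 l)) =
        (s' : ℝ) ^ Fintype.card V * ∑ y ∈ Fintype.piFinset (fun _ : V => typ z'),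
          ∏ e ∈ E, ∏ l, W (z (τ e.1 l)) (y e.2 l) := fun τ =>
      hs2' V fun y => ∏ e ∈ E, ∏ l, W (z (τ e.1 l)) (y e.2 l)
    rw [sum_congr rfl fun τ _ => e1 τ]
    have e2 := hs2 U fun x => (s' : ℝ) ^ Fintype.card V *
      ∑ y ∈ Fintype.piFinset (fun _ : V => typ z'), ∏ e ∈ E, ∏ l, W (x e.1 l) (y e.2 l)
    rw [e2, ← mul_sum, hT]
    ring
  set M := ∏ l, μ (z l) with hM
  set M' := ∏ l, ν (z' l) with hM'
  have hM0 : 0 ≤ M := prod_nonneg fun _ _ => hμ _
  have hM0' : 0 ≤ M' := prod_nonneg fun _ _ => hν _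
  have hZ : M ^ Fintype.card U * M' ^ Fintype.card V * T ≤ Z E μ ν W ^ N := by
    rw [Zpow]
    have hnn : ∀ (x : U → Fin N → Fin q) (y : V → Fin N → Fin r),
        0 ≤ (∏ u, ∏ l, μ (x u l)) * (∏ v, ∏ l, ν (y v l)) *
          ∏ e ∈ E, ∏ l, W (x e.1 l) (y e.2 l) := by
      intro x y
      refine mul_nonneg (mul_nonneg ?_ ?_) ?_
      · exact prod_nonneg fun _ _ => prod_nonneg fun _ _ => hμ _
      · exact prod_nonneg fun _ _ => prod_nonneg fun _ _ => hν _
      · exact prod_nonneg fun _ _ => prod_nonneg fun _ _ => hW _ _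
    have e1 : M ^ Fintype.card U * M' ^ Fintype.card V * T =
        ∑ x ∈ Fintype.piFinset (fun _ : U => typ z),
          ∑ y ∈ Fintype.piFinset (fun _ : V => typ z'),
          (∏ u, ∏ l, μ (x u l)) * (∏ v, ∏ l, ν (y v l)) *
            ∏ e ∈ E, ∏ l, W (x e.1 l) (y e.2 l) := by
      rw [hT, mul_sum]
      refine sum_congr rfl fun x hx => ?_
      rw [mul_sum]
      refine sum_congr rfl fun y hy => ?_
      rw [Fintype.mem_piFinset] at hx hy
      rw [prod_congr rfl fun u _ => prod_typ μ (hx u), prod_const, card_univ,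
        prod_congr rfl fun v _ => prod_typ ν (hy v), prod_const, card_univ]
    rw [e1]
    refine (sum_le_sum fun x _ => ?_).trans
      (sum_le_sum_of_subset_of_nonneg (subset_univ _) fun x _ _ => sum_nonneg fun y _ => hnn x y)
    exact sum_le_sum_of_subset_of_nonneg (subset_univ _) fun y _ _ => hnn x y
  have hmain : pr μ z ^ Fintype.card U * pr ν z' ^ Fintype.card V * G E W z z' =
      (N.factorial : ℝ) ^ (Fintype.card U + Fintype.card V) *
        (M ^ Fintype.card U * M' ^ Fintype.card V * T) := by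
    rw [hG, pr_eq, pr_eq, ← hM, ← hM', pow_add]
    nth_rewrite 1 [← h1]
    rw [← h2]
    rw [mul_pow, mul_pow, mul_pow, mul_pow]
    ring
  rw [hmain]
  exact mul_le_mul_of_nonneg_left hZ (by positivity)

end Vale.Agent.P050
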