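import Vale.Agent.P050.Main
import Vale.Agent.P050.Ind
import Vale.Agent.P050.Corr
import Vale.Agent.P050.Grif
import Vale.Agent.P050.Anti
import Vale.Agent.P050.Hant
import Vale.Agent.P050.Gsum
import Vale.Agent.P050.Orb
import Vale.Agent.P050.Pow
import Vale.Agent.P050.Pig
import Vale.Agent.P050.Lim
import Vale.Agent.P050.Iso

/-!
# P050: assembly
-/

namespace Vale.Agent.P050

theorem main_proved : S_MAIN :=
  main (ind corr (anti grif) hant gsum) (pow orb) (pig orb) lim iso

end Vale.Agent.P050
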