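import Mathlib

/-!
# P050: Sidorenko's inequality for totally positive targets
Definitions and module statements.
-/

namespace Vale.Agent.P050

open Finset

/-- all `2 × 2` minors are nonnegative -/
def TP2 {q r : ℕ} (W : Fin q → Fin r → ℝ) : Prop :=
  ∀ a a' b b', a ≤ a' → b ≤ b' → W a b' * W a' b ≤ W a b * W a' b'

/-- weighted homomorphism sum of the bipartite graph with parts `U`, `V` and edge set `E` -/
noncomputable def Z {U V : Type} [Fintype U] [Fintype V] [DecidableEq U] [DecidableEq V]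
    (E : Finset (U × V)) {q r : ℕ} (μ : Fin q → ℝ)
    (ν : Fin r → ℝ) (W : Fin q → Fin r → ℝ) : ℝ :=
  ∑ x : U → Fin q, ∑ y : V → Fin r,
    (∏ u, μ (x u)) * (∏ v, ν (y v)) * ∏ e ∈ E, W (x e.1) (y e.2)

/-! ## The symmetric group -/

/-- antitone in the strong Bruhat order -/
def Anti {N : ℕ} (f : Equiv.Perm (Fin N) → ℝ) : Prop :=
  ∀ ρ : Equiv.Perm (Fin N), ∀ i j, i < j → ρ i < ρ j → f (ρ * Equiv.swap i j) ≤ f ρ

/-- sign of a spin -/
def sg (b : Bool) : ℝ := if b then 1 else -1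

/-- product over the `N` sheets -/
noncomputable def ff {N q r : ℕ} (W : Fin q → Fin r → ℝ) (z : Fin N → Fin q) (z' : Fin N → Fin r)
    (σ κ : Equiv.Perm (Fin N)) : ℝ := ∏ l, W (z (σ l)) (z' (κ l))

/-- the sum over all alignments of the sheets -/
noncomputable def G {U V : Type} [Fintype U] [Fintype V] [DecidableEq U] [DecidableEq V]
    (E : Finset (U × V)) {N q r : ℕ} (W : Fin q → Fin r → ℝ) (z : Fin N → Fin q)
    (z' : Fin N → Fin r) : ℝ :=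
  ∑ τ : U → Equiv.Perm (Fin N), ∑ κ : V → Equiv.Perm (Fin N), ∏ e ∈ E, ff W z z' (τ e.1) (κ e.2)

/-- the part of the sum with prescribed relative position of `u` and `v` -/
noncomputable def R {U V : Type} [Fintype U] [Fintype V] [DecidableEq U] [DecidableEq V]
    (E : Finset (U × V)) {N q r : ℕ} (W : Fin q → Fin r → ℝ) (z : Fin N → Fin q)
    (z' : Fin N → Fin r) (u : U) (v : V) (ρ : Equiv.Perm (Fin N)) : ℝ :=
  ∑ τ : U → Equiv.Perm (Fin N), ∑ κ : V → Equiv.Perm (Fin N),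
    if κ v = 1 ∧ τ u = ρ then ∏ e ∈ E, ff W z z' (τ e.1) (κ e.2) else 0

/-- rearrangements of `z` -/
noncomputable def typ {N q : ℕ} (z : Fin N → Fin q) : Finset (Fin N → Fin q) :=
  univ.image fun σ : Equiv.Perm (Fin N) => fun l => z (σ l)

/-- probability of the type of `z` -/
noncomputable def pr {N q : ℕ} (μ : Fin q → ℝ) (z : Fin N → Fin q) : ℝ :=
  ∑ x ∈ typ z, ∏ l, μ (x l)

/-! ## Modules -/

/-- CORR: positive correlation on the symmetric group -/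
def S_CORR : Prop := ∀ (N : ℕ) (f g : Equiv.Perm (Fin N) → ℝ), Anti f → Anti g →
  (∑ ρ, f ρ) * (∑ ρ, g ρ) ≤ (N.factorial : ℝ) * ∑ ρ, f ρ * g ρ

/-- GRIF: Griffiths' inequality -/
def S_GRIF : Prop := ∀ (S ι : Type) [Fintype S] [DecidableEq S] (E : Finset ι) (a b : ι → S)
  (p m : ι → ℝ), (∀ e ∈ E, 0 ≤ m e ∧ m e ≤ p e) → ∀ u v : S,
  0 ≤ ∑ s : S → Bool, sg (s u) * sg (s v) * ∏ e ∈ E, (if s (a e) = s (b e) then p e else m e)

/-- ANTI: from GRIF -/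
def S_ANTI : Prop := ∀ (U V : Type) [Fintype U] [Fintype V] [DecidableEq U] [DecidableEq V]
  (E : Finset (U × V)) (N q r : ℕ) (W : Fin q → Fin r → ℝ) (z : Fin N → Fin q)
  (z' : Fin N → Fin r), TP2 W → (∀ a b, 0 ≤ W a b) → Monotone z → Monotone z' →
  ∀ u v, Anti (R E W z z' u v)

/-- HANT -/
def S_HANT : Prop := ∀ (N q r : ℕ) (W : Fin q → Fin r → ℝ) (z : Fin N → Fin q)
  (z' : Fin N → Fin r), TP2 W → (∀ a b, 0 ≤ W a b) → Monotone z → Monotone z' →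
  Anti (fun ρ => ff W z z' ρ 1)

/-- GSUM: invariance under simultaneous multiplication -/
def S_GSUM : Prop := ∀ (U V : Type) [Fintype U] [Fintype V] [DecidableEq U] [DecidableEq V]
  (E : Finset (U × V)) (N q r : ℕ) (W : Fin q → Fin r → ℝ) (z : Fin N → Fin q)
  (z' : Fin N → Fin r) (u : U) (v : V),
  G E W z z' = (N.factorial : ℝ) * ∑ ρ, R E W z z' u v ρ ∧
  ((u, v) ∉ E → G (insert (u, v) E) W z z' =
    (N.factorial : ℝ) * ∑ ρ, R E W z z' u v ρ * ff W z z' ρ 1)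

/-- IND: from CORR, ANTI, HANT, GSUM (induction on `E`) -/
def S_IND : Prop := ∀ (U V : Type) [Fintype U] [Fintype V] [DecidableEq U] [DecidableEq V]
  (E : Finset (U × V)) (N q r : ℕ) (W : Fin q → Fin r → ℝ) (z : Fin N → Fin q)
  (z' : Fin N → Fin r), TP2 W → (∀ a b, 0 ≤ W a b) → Monotone z → Monotone z' →
  (∑ ρ, ff W z z' ρ 1) ^ E.card * (N.factorial : ℝ) ^ (Fintype.card U + Fintype.card V) ≤
    (N.factorial : ℝ) ^ E.card * G E W z z'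

/-- ORB: orbit counting -/
def S_ORB : Prop := ∀ (N q : ℕ) (z : Fin N → Fin q), ∃ s : ℕ, 0 < s ∧
  s * (typ z).card = N.factorial ∧
  ∀ (U : Type) [Fintype U] [DecidableEq U] (F : (U → Fin N → Fin q) → ℝ),
    ∑ τ : U → Equiv.Perm (Fin N), F (fun u l => z (τ u l)) =
      (s : ℝ) ^ Fintype.card U * ∑ x ∈ Fintype.piFinset (fun _ : U => typ z), F x

/-- POW: from ORB -/
def S_POW : Prop := ∀ (U V : Type) [Fintype U] [Fintype V] [DecidableEq U] [DecidableEq V]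
  (E : Finset (U × V)) (N q r : ℕ) (μ : Fin q → ℝ) (ν : Fin r → ℝ) (W : Fin q → Fin r → ℝ)
  (z : Fin N → Fin q) (z' : Fin N → Fin r), (∀ a, 0 ≤ μ a) → (∀ b, 0 ≤ ν b) →
  (∀ a b, 0 ≤ W a b) →
  pr μ z ^ Fintype.card U * pr ν z' ^ Fintype.card V * G E W z z' ≤
    (N.factorial : ℝ) ^ (Fintype.card U + Fintype.card V) * Z E μ ν W ^ N

/-- PIG: from ORB (pigeonhole over the types) -/
def S_PIG : Prop := ∀ (N q r : ℕ) (μ : Fin q → ℝ) (ν : Fin r → ℝ) (W : Fin q → Fin r → ℝ),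
  (∀ a, 0 ≤ μ a) → (∀ b, 0 ≤ ν b) → (∀ a b, 0 ≤ W a b) → ∑ a, μ a = 1 → ∑ b, ν b = 1 →
  ∃ (z : Fin N → Fin q) (z' : Fin N → Fin r), Monotone z ∧ Monotone z' ∧
    0 ≤ pr μ z ∧ pr μ z ≤ 1 ∧ 0 ≤ pr ν z' ∧ pr ν z' ≤ 1 ∧
    (N.factorial : ℝ) * (∑ a, ∑ b, μ a * ν b * W a b) ^ N ≤
      ((N : ℝ) + 1) ^ (q + r) * (pr μ z * pr ν z' * ∑ ρ, ff W z z' ρ 1)

/-- LIM -/
def S_LIM : Prop := ∀ (c d : ℝ) (k : ℕ), 0 ≤ c → 0 ≤ d →
  (∀ N : ℕ, d ^ N ≤ ((N : ℝ) + 1) ^ k * c ^ N) → d ≤ c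

/-- ISO: removal of isolated vertices -/
def S_ISO : Prop := ∀ (U V : Type) [Fintype U] [Fintype V] [DecidableEq U] [DecidableEq V]
  (E : Finset (U × V)), ∃ (U' V' : Type) (_ : Fintype U') (_ : Fintype V') (_ : DecidableEq U')
  (_ : DecidableEq V') (E' : Finset (U' × V')), E'.card = E.card ∧ Fintype.card U' ≤ E.card ∧
  Fintype.card V' ≤ E.card ∧
  ∀ (q r : ℕ) (μ : Fin q → ℝ) (ν : Fin r → ℝ) (W : Fin q → Fin r → ℝ),
    ∑ a, μ a = 1 → ∑ b, ν b = 1 → Z E μ ν W = Z E' μ ν W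

/-- MAIN: from IND, POW, PIG, LIM, ISO -/
def S_MAIN : Prop := ∀ (U V : Type) [Fintype U] [Fintype V] [DecidableEq U] [DecidableEq V]
  (E : Finset (U × V)) (q r : ℕ) (μ : Fin q → ℝ) (ν : Fin r → ℝ) (W : Fin q → Fin r → ℝ),
  (∀ a, 0 ≤ μ a) → (∀ b, 0 ≤ ν b) → (∀ a b, 0 ≤ W a b) → ∑ a, μ a = 1 → ∑ b, ν b = 1 → TP2 W →
  (∑ a, ∑ b, μ a * ν b * W a b) ^ E.card ≤ Z E μ ν W

end Vale.Agent.P050
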