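import Mathlib

/-!
# P050: homomorphism densities of bipartite graphs in kernels on finite probability spaces
-/

namespace Vale.Agent.P050

open Finset

/-- homomorphism density of the bipartite graph with parts `U`, `V` and edge set `E` in the kernel
`W` on the finite probability spaces `(X, μ)`, `(Y, ν)` -/
noncomputable def homDensity {X Y U V : Type} [Fintype X] [Fintype Y] [Fintype U] [Fintype V]
    [DecidableEq U] [DecidableEq V] (E : Finset (U × V)) (μ : X → ℝ) (ν : Y → ℝ)
    (W : X → Y → ℝ) : ℝ :=
  ∑ x : U → X, ∑ y : V → Y, (∏ u, μ (x u)) * (∏ v, ν (y v)) * ∏ e ∈ E, W (x e.1) (y e.2)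

end Vale.Agent.P050
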