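import Vale.Agent.P050.Main
import Vale.Agent.P050.Density

/-!
# P050: transfer to arbitrary finite types, rank two kernels, graphs
-/

namespace Vale.Agent.P050

open Finset

namespace FinalAux

theorem exists_sort {X : Type} [Fintype X] (f : X → ℝ) :
    ∃ α : Fin (Fintype.card X) ≃ X, Monotone (fun i => f (α i)) := by
  classical
  let e := (Fintype.equivFin X).symm
  exact ⟨(Tuple.sort (fun i => f (e i))).trans e, Tuple.monotone_sort (fun i => f (e i))⟩

theorem tp (hM : S_MAIN) {X Y U V : Type} [Fintype X] [Fintype Y] [Fintype U] [Fintype V]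
    [DecidableEq U] [DecidableEq V] (E : Finset (U × V)) (μ : X → ℝ) (ν : Y → ℝ)
    (W : X → Y → ℝ) (f : X → ℝ) (g : Y → ℝ) (hμ : ∀ a, 0 ≤ μ a) (hν : ∀ b, 0 ≤ ν b)
    (hμ1 : ∑ a, μ a = 1) (hν1 : ∑ b, ν b = 1) (hW : ∀ a b, 0 ≤ W a b)
    (hT : ∀ a a' b b', f a ≤ f a' → g b ≤ g b' → W a b' * W a' b ≤ W a b * W a' b') :
    (∑ a, ∑ b, μ a * ν b * W a b) ^ E.card ≤ homDensity E μ ν W := by
  classical
  obtain ⟨α, hα⟩ := exists_sort f
  obtain ⟨β, hβ⟩ := exists_sort g
  have h := hM U V E _ _ (fun i => μ (α i)) (fun j => ν (β j)) (fun i j => W (α i) (β j))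
    (fun _ => hμ _) (fun _ => hν _) (fun _ _ => hW _ _) (by rw [Equiv.sum_comp α μ]; exact hμ1)
    (by rw [Equiv.sum_comp β ν]; exact hν1)
    (fun a a' b b' h1 h2 => hT _ _ _ _ (hα h1) (hβ h2))
  have h1 : ∑ i, ∑ j, μ (α i) * ν (β j) * W (α i) (β j) = ∑ a, ∑ b, μ a * ν b * W a b := by
    rw [← Equiv.sum_comp α (fun a => ∑ b, μ a * ν b * W a b)]
    apply sum_congr rfl
    intro i _
    rw [← Equiv.sum_comp β]
  have h2 : Z E (fun i => μ (α i)) (fun j => ν (β j)) (fun i j => W (α i) (β j)) =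
      homDensity E μ ν W := by
    unfold Z homDensity
    rw [← Equiv.sum_comp (Equiv.piCongrRight fun _ : U => α)]
    apply sum_congr rfl
    intro x _
    rw [← Equiv.sum_comp (Equiv.piCongrRight fun _ : V => β)]
    rfl
  rw [h1, h2] at h
  exact h

theorem rank2 (hM : S_MAIN) {X Y U V : Type} [Fintype X] [Fintype Y] [Fintype U] [Fintype V]
    [DecidableEq U] [DecidableEq V] (E : Finset (U × V)) (μ : X → ℝ) (ν : Y → ℝ)
    (f₁ f₂ : X → ℝ) (g₁ g₂ : Y → ℝ) (hμ : ∀ a, 0 ≤ μ a) (hν : ∀ b, 0 ≤ ν b)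
    (hμ1 : ∑ a, μ a = 1) (hν1 : ∑ b, ν b = 1) (hW : ∀ a b, 0 ≤ f₁ a * g₁ b + f₂ a * g₂ b) :
    (∑ a, ∑ b, μ a * ν b * (f₁ a * g₁ b + f₂ a * g₂ b)) ^ E.card ≤
      homDensity E μ ν (fun a b => f₁ a * g₁ b + f₂ a * g₂ b) := by
  classical
  set G1 := ∑ b, g₁ b with hG1
  set G2 := ∑ b, g₂ b with hG2
  set F1 := ∑ a, f₁ a with hF1
  set F2 := ∑ a, f₂ a with hF2
  have hS : ∀ a, f₁ a * G1 + f₂ a * G2 = ∑ b, (f₁ a * g₁ b + f₂ a * g₂ b) := by
    intro a
    rw [sum_add_distrib, ← mul_sum, ← mul_sum]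
  have hT : ∀ b, F1 * g₁ b + F2 * g₂ b = ∑ a, (f₁ a * g₁ b + f₂ a * g₂ b) := by
    intro b
    rw [sum_add_distrib, ← sum_mul, ← sum_mul]
  have hS0 : ∀ a, 0 ≤ f₁ a * G1 + f₂ a * G2 := fun a => by
    rw [hS]; exact sum_nonneg fun b _ => hW a b
  have hT0 : ∀ b, 0 ≤ F1 * g₁ b + F2 * g₂ b := fun b => by
    rw [hT]; exact sum_nonneg fun a _ => hW a b
  have hSz : ∀ a, f₁ a * G1 + f₂ a * G2 = 0 → ∀ b, f₁ a * g₁ b + f₂ a * g₂ b = 0 := by
    intro a h b
    rw [hS, sum_eq_zero_iff_of_nonneg fun b _ => hW a b] at h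
    exact h b (mem_univ b)
  have hTz : ∀ b, F1 * g₁ b + F2 * g₂ b = 0 → ∀ a, f₁ a * g₁ b + f₂ a * g₂ b = 0 := by
    intro b h a
    rw [hT, sum_eq_zero_iff_of_nonneg fun a _ => hW a b] at h
    exact h a (mem_univ a)
  apply tp hM E μ ν _ (fun a => (G1 * f₂ a - G2 * f₁ a) / (f₁ a * G1 + f₂ a * G2))
    (fun b => (F1 * g₂ b - F2 * g₁ b) / (F1 * g₁ b + F2 * g₂ b)) hμ hν hμ1 hν1 hW
  intro a a' b b' h1 h2
  rcases (hS0 a).eq_or_lt with h | ha
  · have e := hSz a h.symm
    rw [e b, e b']; simp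
  rcases (hS0 a').eq_or_lt with h | ha'
  · have e := hSz a' h.symm
    rw [e b, e b']; simp
  rcases (hT0 b).eq_or_lt with h | hb
  · have e := hTz b h.symm
    rw [e a, e a']; simp
  rcases (hT0 b').eq_or_lt with h | hb'
  · have e := hTz b' h.symm
    rw [e a, e a']; simp
  have h1' : 0 ≤ (f₁ a * f₂ a' - f₂ a * f₁ a') * (G1 ^ 2 + G2 ^ 2) := by
    have := (div_le_div_iff₀ ha ha').1 h1
    nlinarith [this]
  have h2' : 0 ≤ (g₁ b * g₂ b' - g₂ b * g₁ b') * (F1 ^ 2 + F2 ^ 2) := by
    have := (div_le_div_iff₀ hb hb').1 h2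
    nlinarith [this]
  have hGG : 0 < G1 ^ 2 + G2 ^ 2 := by
    rcases eq_or_ne G1 0 with h | h
    · rcases eq_or_ne G2 0 with h' | h'
      · rw [h, h'] at ha; simp at ha
      · positivity
    · positivity
  have hFF : 0 < F1 ^ 2 + F2 ^ 2 := by
    rcases eq_or_ne F1 0 with h | h
    · rcases eq_or_ne F2 0 with h' | h'
      · rw [h, h'] at hb; simp at hb
      · positivity
    · positivity
  have h3 : 0 ≤ f₁ a * f₂ a' - f₂ a * f₁ a' := nonneg_of_mul_nonneg_left h1' hGG
  have h4 : 0 ≤ g₁ b * g₂ b' - g₂ b * g₁ b' := nonneg_of_mul_nonneg_left h2' hFF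
  have h5 := mul_nonneg h3 h4
  nlinarith [h5]

theorem graph (hM : S_MAIN) {A B : Type} [Fintype A] [Nonempty A] [Fintype B]
    (H : SimpleGraph B) (hH : H.Colorable 2) (R : A → A → Prop) (hR : ∀ a b, R a b → R b a)
    (f g : A → ℝ)
    (hT : ∀ a a' b b', f a ≤ f a' → g b ≤ g b' → R a b' → R a' b → R a b ∧ R a' b') :
    ((Nat.card {p : A × A // R p.1 p.2} : ℝ) / (Nat.card A : ℝ) ^ 2) ^ Nat.card H.edgeSet ≤
      (Nat.card {φ : B → A // ∀ u v, H.Adj u v → R (φ u) (φ v)} : ℝ) /
        (Nat.card A : ℝ) ^ Nat.card B := by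
  classical
  obtain ⟨c⟩ := hH
  set n : ℝ := (Fintype.card A : ℝ) with hn
  have hn0 : 0 < n := by rw [hn]; exact_mod_cast Fintype.card_pos
  let E : Finset (B × B) := univ.filter fun e => H.Adj e.1 e.2 ∧ c e.1 = 0
  have hE : E.card = Nat.card H.edgeSet := by
    rw [Nat.card_eq_fintype_card, ← SimpleGraph.edgeFinset_card]
    apply card_bij (fun e _ => s(e.1, e.2))
    · intro e he
      simp only [E, mem_filter] at he
      exact SimpleGraph.mem_edgeFinset.2 he.2.1
    · rintro ⟨u, v⟩ h ⟨u', v'⟩ h' heq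
      simp only [E, mem_filter] at h h'
      simp only [Sym2.eq_iff] at heq
      rcases heq with ⟨h1, h2⟩ | ⟨h1, h2⟩
      · rw [h1, h2]
      · exfalso
        have := c.valid h.2.1
        rw [h1, h2] at this
        have h3 := h.2.2
        have h4 := h'.2.2
        rw [h1] at h3
        rw [h3, h4] at this
        exact this rfl
    · intro e he
      induction e using Sym2.ind with
      | _ u v =>
        rw [SimpleGraph.mem_edgeFinset, SimpleGraph.mem_edgeSet] at he
        by_cases h : c u = 0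
        · exact ⟨(u, v), by simp [E, he, h], rfl⟩
        · refine ⟨(v, u), ?_, Sym2.eq_swap⟩
          simp only [E, mem_filter, mem_univ, true_and]
          refine ⟨he.symm, ?_⟩
          have := c.valid he
          show c v = 0
          omega
  have h := tp hM E (fun _ : A => 1 / n) (fun _ : A => 1 / n) (fun a b => if R a b then (1 : ℝ) else 0)
    f g (fun _ => by positivity) (fun _ => by positivity)
    (by rw [sum_const, nsmul_eq_mul, card_univ, ← hn]; field_simp)
    (by rw [sum_const, nsmul_eq_mul, card_univ, ← hn]; field_simp)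
    (fun a b => by split_ifs <;> norm_num)
    (by
      intro a a' b b' h1 h2
      by_cases h3 : R a b'
      · by_cases h4 : R a' b
        · obtain ⟨h5, h6⟩ := hT a a' b b' h1 h2 h3 h4
          simp [h3, h4, h5, h6]
        · simp only [h4, if_false, mul_zero]
          split_ifs <;> norm_num
      · simp only [h3, if_false, zero_mul]
        split_ifs <;> norm_num)
  have h1 : ∑ a : A, ∑ b : A, 1 / n * (1 / n) * (if R a b then (1 : ℝ) else 0) =
      (Nat.card {p : A × A // R p.1 p.2} : ℝ) / (Nat.card A : ℝ) ^ 2 := by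
    rw [Nat.card_eq_fintype_card, Nat.card_eq_fintype_card, ← hn, Fintype.card_subtype,
      ← Fintype.sum_prod_type' (fun a b => 1 / n * (1 / n) * (if R a b then (1 : ℝ) else 0)),
      ← mul_sum, sum_boole]
    field_simp
  have h2 : homDensity E (fun _ : A => 1 / n) (fun _ : A => 1 / n)
      (fun a b => if R a b then (1 : ℝ) else 0) =
      (Nat.card {φ : B → A // ∀ u v, H.Adj u v → R (φ u) (φ v)} : ℝ) /
        (Nat.card A : ℝ) ^ Nat.card B := by
    have hinv : Function.Involutive (fun p : (B → A) × (B → A) =>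
        ((fun w => if c w = 0 then p.1 w else p.2 w), (fun w => if c w = 0 then p.2 w else p.1 w))) := by
      rintro ⟨x, y⟩
      apply Prod.ext
      · funext w
        by_cases h : c w = 0 <;> simp [h]
      · funext w
        by_cases h : c w = 0 <;> simp [h]
    obtain ⟨P, hP⟩ : ∃ P : Equiv.Perm ((B → A) × (B → A)), ∀ p, P p =
        ((fun w => if c w = 0 then p.1 w else p.2 w), (fun w => if c w = 0 then p.2 w else p.1 w)) :=
      ⟨Function.Involutive.toPerm _ hinv, fun _ => rfl⟩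
    have e0 : ∀ x y : B → A, (∏ e ∈ E, if R ((P (x, y)).1 e.1) ((P (x, y)).2 e.2) then (1 : ℝ) else 0) =
        if ∀ u v, H.Adj u v → R (x u) (x v) then (1 : ℝ) else 0 := by
      intro x y
      rw [hP]
      split_ifs with h
      · apply prod_eq_one
        rintro ⟨u, v⟩ he
        simp only [E, mem_filter, mem_univ, true_and] at he
        obtain ⟨huv, hu⟩ := he
        have hv : c v ≠ 0 := fun hv => c.valid huv (hu.trans hv.symm)
        have := h u v huv
        simpa [hu, hv] using this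
      · push Not at h
        obtain ⟨u, v, huv, hx⟩ := h
        by_cases hu : c u = 0
        · have hv : c v ≠ 0 := fun hv => c.valid huv (hu.trans hv.symm)
          apply prod_eq_zero (i := (u, v)) (by simp [E, huv, hu])
          simp [hu, hv, hx]
        · have hv : c v = 0 := by
            have := c.valid huv
            omega
          have hx' : ¬ R (x v) (x u) := fun h => hx (hR _ _ h)
          apply prod_eq_zero (i := (v, u)) (by simp [E, huv.symm, hv])
          simp [hu, hv, hx']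
    have e1 : homDensity E (fun _ : A => 1 / n) (fun _ : A => 1 / n)
      (fun a b => if R a b then (1 : ℝ) else 0) =
      ∑ x : B → A, ∑ _y : B → A, (1 / n) ^ Fintype.card B * (1 / n) ^ Fintype.card B *
        (if ∀ u v, H.Adj u v → R (x u) (x v) then (1 : ℝ) else 0) := by
      unfold homDensity
      rw [← Fintype.sum_prod_type' (fun x y : B → A => (∏ _u : B, 1 / n) * (∏ _v : B, 1 / n) *
        ∏ e ∈ E, if R (x e.1) (y e.2) then (1 : ℝ) else 0), ← Equiv.sum_comp P,
        Fintype.sum_prod_type]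
      apply sum_congr rfl
      intro x _
      apply sum_congr rfl
      intro y _
      rw [e0, prod_const, card_univ]
    rw [e1, Nat.card_eq_fintype_card, Nat.card_eq_fintype_card, Nat.card_eq_fintype_card, ← hn,
      Fintype.card_subtype, ← sum_boole]
    simp only [sum_const, card_univ, Fintype.card_fun, nsmul_eq_mul]
    rw [← mul_sum, ← mul_sum]
    push_cast
    rw [← hn]
    simp only [one_div, inv_pow]
    field_simp
  rw [h1, h2, hE] at h
  exact h

end FinalAux

end Vale.Agent.P050
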