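import Vale.Agent.P050.Defs

/-!
# P050: MAIN
-/

namespace Vale.Agent.P050

open Finset

theorem main (hI : S_IND) (hP : S_POW) (hG : S_PIG) (hL : S_LIM) (hO : S_ISO) : S_MAIN := by
  intro U V _ _ _ _ E q r μ ν W hμ hν hW hμ1 hν1 hT
  obtain ⟨U', V', i1, i2, i3, i4, E', hc, hU, hV, hZ⟩ := hO U V E
  rw [hZ q r μ ν W hμ1 hν1, ← hc]
  rw [← hc] at hU hV
  have ht : 0 ≤ ∑ a, ∑ b, μ a * ν b * W a b :=
    sum_nonneg fun a _ => sum_nonneg fun b _ => mul_nonneg (mul_nonneg (hμ a) (hν b)) (hW a b)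
  have hZ0 : 0 ≤ Z E' μ ν W := by
    unfold Z
    refine sum_nonneg fun x _ => sum_nonneg fun y _ => mul_nonneg (mul_nonneg ?_ ?_) ?_
    · exact prod_nonneg fun u _ => hμ _
    · exact prod_nonneg fun u _ => hν _
    · exact prod_nonneg fun u _ => hW _ _
  apply hL _ _ ((q + r) * E'.card) hZ0 (pow_nonneg ht _)
  intro N
  obtain ⟨z, z', hz, hz', p0, p1, p0', p1', hb⟩ := hG N q r μ ν W hμ hν hW hμ1 hν1
  have h1 := hI U' V' E' N q r W z z' hT hW hz hz'
  have h2 := hP U' V' E' N q r μ ν W z z' hμ hν hW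
  have hP0 : 0 ≤ ∑ ρ, ff W z z' ρ 1 :=
    sum_nonneg fun ρ _ => prod_nonneg fun l _ => hW _ _
  have hF : (0 : ℝ) < (N.factorial : ℝ) := by exact_mod_cast Nat.factorial_pos N
  generalize (∑ a, ∑ b, μ a * ν b * W a b) = t at *
  generalize (∑ ρ, ff W z z' ρ 1) = P at *
  generalize pr μ z = p at *
  generalize pr ν z' = p' at *
  generalize Z E' μ ν W = c at *
  generalize G E' W z z' = g at *
  generalize (N.factorial : ℝ) = F at *
  generalize hee : E'.card = e at *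
  generalize Fintype.card U' = u at *
  generalize Fintype.card V' = v at *
  have h3 : (p * p' * P) ^ e ≤ F ^ e * c ^ N := by
    have ha : p ^ e ≤ p ^ u := pow_le_pow_of_le_one p0 p1 hU
    have hb' : p' ^ e ≤ p' ^ v := pow_le_pow_of_le_one p0' p1' hV
    have hFk : 0 < F ^ (u + v) := pow_pos hF _
    have hPe : 0 ≤ P ^ e := pow_nonneg hP0 _
    have h4 : (p * p' * P) ^ e * F ^ (u + v) ≤ F ^ e * c ^ N * F ^ (u + v) := by
      calc (p * p' * P) ^ e * F ^ (u + v) = (p ^ e * p' ^ e) * (P ^ e * F ^ (u + v)) := by ring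
        _ ≤ (p ^ u * p' ^ v) * (P ^ e * F ^ (u + v)) := by
            apply mul_le_mul_of_nonneg_right _ (mul_nonneg hPe hFk.le)
            exact mul_le_mul ha hb' (pow_nonneg p0' _) (pow_nonneg p0 _)
        _ ≤ (p ^ u * p' ^ v) * (F ^ e * g) := by
            apply mul_le_mul_of_nonneg_left h1
            exact mul_nonneg (pow_nonneg p0 _) (pow_nonneg p0' _)
        _ = F ^ e * (p ^ u * p' ^ v * g) := by ring
        _ ≤ F ^ e * (F ^ (u + v) * c ^ N) := by
            apply mul_le_mul_of_nonneg_left h2 (pow_nonneg hF.le _)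
        _ = F ^ e * c ^ N * F ^ (u + v) := by ring
    exact le_of_mul_le_mul_right h4 hFk
  have hN : (0 : ℝ) ≤ (N : ℝ) + 1 := by positivity
  have h5 : F ^ e * (t ^ e) ^ N ≤ F ^ e * (((N : ℝ) + 1) ^ ((q + r) * e) * c ^ N) := by
    calc F ^ e * (t ^ e) ^ N = (F * t ^ N) ^ e := by
            rw [mul_pow, ← pow_mul, ← pow_mul, Nat.mul_comm]
      _ ≤ (((N : ℝ) + 1) ^ (q + r) * (p * p' * P)) ^ e :=
            pow_le_pow_left₀ (mul_nonneg hF.le (pow_nonneg ht _)) hb e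
      _ = ((N : ℝ) + 1) ^ ((q + r) * e) * (p * p' * P) ^ e := by
            rw [mul_pow, pow_mul]
      _ ≤ ((N : ℝ) + 1) ^ ((q + r) * e) * (F ^ e * c ^ N) :=
            mul_le_mul_of_nonneg_left h3 (pow_nonneg hN _)
      _ = F ^ e * (((N : ℝ) + 1) ^ ((q + r) * e) * c ^ N) := by ring
  exact le_of_mul_le_mul_left h5 (pow_pos hF _)

end Vale.Agent.P050
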